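import Vale.Agent.N257.State
import Vale.Agent.P257.G.Base

/-!
# P257, rescaled windows: the beginning of the induction
-/

open CategoryTheory MonoidalCategory Limits Pointwise

namespace Vale.Agent.P257.G.R

open Vale.Agent.P251.H Vale.Agent.P251.H.StabInput
open Vale.Agent.P257.A Vale.Agent.P257.T Vale.Agent.P257.W Vale.Agent.P257.K Vale.Agent.P257.M
open Vale.Agent.P257.N (NZ SM)
open Equiv (Perm)

universe w

variable {p : ℕ} [hp : Fact p.Prime] {n i : ℕ}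

theorem Num.up_llp (h : Num p n) {R R₁ B : CommMon MM} {g₁ : R ⟶ R₁} {g₂ : R₁ ⟶ B} {X : MM}
    {x : cone (tX X (ww i)) ⟶ R₁.X} {χ : cone (tX X (ww i)) ⊗ CI MM ⟶ B.X}
    (h1 : Ex (Nv p) i g₁) (h2 : NF X (ee i, 0) (dd p i - 2)) (h3 : IsAttach g₂ x χ) :
    UP (sE p) (tE p) (pa p n) (g₁ ≫ g₂) (one (ee i) (ww i)) (i : ℕ) := by
  have H := worldE hp.out
  refine ((up_ex H h.lm_lt h1).comp (up_pair H (trE hp.out) (h.lt i) h.lm_lt' h3 h2)).mono
    (zero_add _).le ?_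
  rw [add_zero]

omit hp in
theorem t_eq_zero' {T : CommMon MM} (φ : T0 ⟶ T) (a : Lam) {r s : ℕ} (k : r ≤ s) (m : ℕ)
    (h : m • (sE p).map (ut a r ≫ ah φ) = 0) :
    m • (sE p).map (t1 s ≫ MonObj.one (X := T.X)) = 0 := by
  refine t_eq_zero φ a s m ?_
  have e : ut a s = M.tm (g := (a, (r : ℤ))) (g' := (a, (s : ℤ))) ⟨le_rfl, Int.ofNat_le.2 k⟩ ≫
      ut a r := (tm_unG _ _).symm
  rw [e, Category.assoc, Functor.map_comp, ← Preadditive.comp_nsmul, h, comp_zero]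

variable {MU : EE p} [MonObj MU] {A₀ : Type w} [CommRing A₀] {G₀ : L.RegSeq p A₀}
  (Co : L.Coef (SC.sph (De p)) MU G₀) {ι : Type} [Finite ι] [Nontrivial ι] [DecidableEq ι]
  [hι : Fact (Nat.card ι = p)] {hl : 4 ≤ Nat.card ι}

/-- **BASE.** -/
theorem exists_core_zero (h : Num p n) : ∃ σ : Core ι p n hl 0, σ.Det Co := by
  have H := worldE hp.out
  have h4 := h.five_le
  let i : (cE p).obj (dd p 0 - 1, (ee 0, ((ww 0 : ℕ) : ℤ))) ≅
      (sE p).obj (rp (ee 0, ((ww 0 : ℕ) : ℤ))) := eqToIso (by simp [dd]) ≪≫ (rpIso p _).symm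
  obtain ⟨b, T, B, R, s, sp, r, g₁, g₂, X, x, χ, ε, h1, hq1, h2, h3, -, h5, h6, h7⟩ :=
    LLP hp.out ⟨le0_T0, posT_T0⟩ (RC.nil (A := CommMon.trivial MM) (sp0 := default))
      ⟨Le0.unit, V.posT_unit⟩ (WW_le 0) (h.lt_ww (Nat.zero_le _))
      (p • (i.hom ≫ (sE p).map (ut _ _)))
  have hd : Det0 (𝟙 T0) (ee 0) (ww 0) ((sE p).map s.v) := ⟨ε ≪≫ i, by
    rw [h3, natCast_zsmul, Preadditive.comp_nsmul, Iso.trans_hom ε, Category.assoc]
    exact congrArg (fun y => p • (ε.hom ≫ i.hom ≫ (sE p).map y)) (Category.comp_id _).symm⟩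
  have h8 : p • (sE p).map (t1 3 ≫ MonObj.one (X := T.X)) = 0 := t_eq_zero' s.i (ee 0)
      (r := ww 0) (Nat.le_succ _) p (by
    have k := N.st_cone_zero (De p) s.χ
    rwa [s.att.w, Functor.map_comp, h3, Category.assoc, Preadditive.IsIso.comp_left_eq_zero,
      Preadditive.nsmul_comp, Category.assoc, ← Preadditive.comp_nsmul,
      Preadditive.IsIso.comp_left_eq_zero, ← Functor.map_comp] at k)
  obtain ⟨k, f, hf⟩ := SC.exists_frac (p • (sE p).map ((De p).t _ ≫ t1 3))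
  obtain ⟨l, ζ, hζ⟩ := exists_null (D := De p) (f := f ≫ MonObj.one (X := T.X)) (by
    rw [Functor.map_comp, ← hf, Category.assoc, Preadditive.nsmul_comp, ← Functor.map_comp,
      Category.assoc, Functor.map_comp, ← Preadditive.comp_nsmul, h8, comp_zero, comp_zero])
  obtain ⟨a, Y, u, ξ, k1, -, k2, k3⟩ := un_base (P := (2 * 2 ^ n : ℕ)) (s := 3)
    (Z.ctx (D.Gr.inc D.O (0 : Gam)) p ι) (by omega) (Nat.succ_pos _) h.lt_base
    (((NF.U_tensor (NF0.rp _)).pw k).pw l) ((De p).tk l _ ≫ f)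
    (asIso ((sE p).map ((De p).tk l _)) ≪≫ asIso ((sE p).map ((De p).tk k _)) ≪≫
      asIso ((sE p).map ((De p).t _))) (by
      rw [Functor.map_comp, ← hf, Functor.map_comp]
      simp)
  obtain ⟨z, q, hq⟩ := k3.ex (default : _ ⟶ B)
  obtain ⟨φ, -, -⟩ := k2.desc (default : _ ⟶ T) (u ▷ _ ≫ ζ) (by
    rw [coneBase_naturality_assoc, hζ, N.ah_trivial]
    exact ((Category.assoc _ _ _).trans (congrArg _ (Category.assoc _ _ _))).symm)
  have : IsIso (RC.nil (ok := okW p ww) (T0 := T0) (A := CommMon.trivial MM)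
      (sp0 := default)).i0 := inferInstanceAs (IsIso (𝟙 _))
  have := b.po.isIso_inr_of_isIso
  have uB : UP0 p n B (DB 0) (NN 0) := by
    rw [UP0, Subsingleton.elim default (g₁ ≫ g₂)]
    exact h.up_llp h5 h6 h7
  refine ⟨⟨b.A', b.sp0', T0, T, .nil, s, h2, b.R', B, b.sp', sp, b.c', r, h1, hq1 Lq.unit, z,
    k3.bc hq, hq.1.desc φ sp (Subsingleton.elim _ _), hq.1.inr_desc _ _ _,
    inv b.c'.i0 ≫ _, IsIso.hom_inv_id_assoc _ _, uB, ?_⟩, ?_⟩
  · rw [UP0, Subsingleton.elim default (default ≫ z.β)]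
    exact (UP.comp uB (up_odd H (h.lt_two (Nat.le_succ 2))
      (k2.of_isPushout hq.1) k1 Even.zero (by simp) (by simp))).mono le_rfl (by simp)
  · rw [Core.Det, TC.All, TC.All, DetS]
    exact ⟨trivial, hd⟩

end Vale.Agent.P257.G.R
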