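import Vale.Agent.P257.W.Le0
import Vale.Agent.P257.N.Good
import Vale.Agent.P257.F.Inst

/-!
# P257, rescaled windows: odd cells of filtration degree `f` are linear below `p * f`
-/

open CategoryTheory MonoidalCategory Limits

namespace Vale.Agent.P257.G.R

open Vale.Agent.P251.H Vale.Agent.P251.H.StabInput Vale.Agent.P257 Vale.Agent.P257.A
open Vale.Agent.P257.C Vale.Agent.P257.D Vale.Agent.P257.D.EF Vale.Agent.P257.M Vale.Agent.P257.V
open Vale.Agent.P257.T (Le0)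

universe v' u'

section supp

variable {X Y : MM} {B B' : CommMon MM} {i : B ⟶ B'} {x : X ⟶ B.X} {χ : X ⊗ CI _ ⟶ B'.X} {r : ℤ}

theorem degIso_left (h : IsAttach i x χ) (hY : PosT Y 0) (hB : PosT B.X 0) (hX : PosT X r)
    (hr : 0 ≤ r) (k : ℕ) : DegIso O {g : Gam | g.2 < (k + 1) * r} (Y ◁ stgTo h.w k) := fun y hy =>
  h.isIso_map_stgTo (tensorLeft Y ⋙ ev y) k fun ι _ K l =>
    (Supp.tensor_w wT_mono hY (Supp.tensor_w wT_mono hB
      (supp_tensor_J wT_mono (Supp.pw_w wT_mono ι hX) K))) y (by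
      have h1 : ((k : ℤ) + 1) * r ≤ Nat.card ι * r :=
        mul_le_mul_of_nonneg_right (by exact_mod_cast l) hr
      have h2 : y.deg.2 < (k + 1) * r := hy
      change ¬ (0 + (0 + (Nat.card ι : ℤ) * r) ≤ y.deg.2)
      omega)

theorem degIso_stg (h : IsAttach i x χ) (hB : PosT B.X 0) (hX : PosT X r)
    (hr : 0 ≤ r) (k : ℕ) : DegIso O {g : Gam | g.2 < (k + 1) * r} (stgTo h.w k) := fun y hy =>
  h.isIso_map_stgTo (ev y) k fun ι _ K l =>
    (Supp.tensor_w wT_mono hB (supp_tensor_J wT_mono (Supp.pw_w wT_mono ι hX) K)) y (by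
      have h1 : ((k : ℤ) + 1) * r ≤ Nat.card ι * r :=
        mul_le_mul_of_nonneg_right (by exact_mod_cast l) hr
      have h2 : y.deg.2 < (k + 1) * r := hy
      change ¬ (0 + (Nat.card ι : ℤ) * r ≤ y.deg.2)
      omega)

end supp

variable {C : Type u'} [Category.{v'} C] [Preadditive C] [MonoidalCategory C] [SymmetricCategory C]
  [MonoidalPreadditive C] {st : MM ⥤ C} [st.Monoidal] {c : Cells C (ℤ × Gam)} {τ : TCone c} {p : ℕ}

section world

variable (H : World st c τ p) {X Y : MM} {g : Gam} {a : Lam} {k W P r : ℤ} {B B' : CommMon MM}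
  {i : B ⟶ B'} {x : X ⟶ B.X} {χ : X ⊗ CI MM ⟶ B'.X}
include H

omit [SymmetricCategory C] [MonoidalPreadditive C] [st.Monoidal] in
theorem pred_succ : (((p - 1 : ℕ) : ℤ) + 1) = p := by
  have := H.two
  omega

omit [SymmetricCategory C] [MonoidalPreadditive C] [st.Monoidal] in
theorem bij_top (h : IsAttach i x χ) (hB : PosT B.X 0) (hX : PosT X r) (hr : 0 ≤ r) (l : ℤ)
    (a : Lam) {T : ℤ} (hT : T < p * r) : L.Bij (c.obj (l, (a, T))) (st.map (stgTo h.w (p - 1))) :=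
  H.deg ((degIso_stg h hB hX hr (p - 1)).mono (Set.singleton_subset_iff.2 (by
    change T < _
    rwa [pred_succ H]))) l

theorem bij_c1 (h : IsAttach i x χ) (hv : HV X) (hB : PosT B.X 0) (hX : PosT X r) (hr : 0 ≤ r)
    (e : Nonempty (st.obj X ≅ c.obj (k, g))) (hk : Even k) (l : ℤ) (a : Lam) {T : ℤ}
    (hT : T < p * r) : L.Bij (c.obj (l, (a, T))) (st.map (c1 h.w)) := by
  obtain ⟨e⟩ := H.susp e
  obtain ⟨j, hj⟩ := exists_iso_c1 h.w
  have := H.two
  rw [← hj, st.map_comp]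
  exact (L.Bij.of_isIso _ _).comp (H.real.bij_stgTo h.w (n := p - 1) (by omega)
    (fun j a b => H.d2 hv e hk.add_one a (by omega)) (bij_top H h hB hX hr l a hT))

theorem bij_c1_left (h : IsAttach i x χ) (hv : HV X) (hY : PosT Y 0) (hB : PosT B.X 0)
    (hX : PosT X r) (hr : 0 ≤ r) (e : Nonempty (st.obj X ≅ c.obj (k, g))) (hk : Even k) (l : ℤ)
    (a : Lam) {T : ℤ} (hT : T < p * r) :
    L.Bij (c.obj (l, (a, T))) (st.obj Y ◁ st.map (c1 h.w)) := by
  obtain ⟨e⟩ := H.susp e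
  obtain ⟨j, hj⟩ := exists_iso_c1 h.w
  have := H.two
  rw [← hj, st.map_comp, MonoidalCategory.whiskerLeft_comp]
  exact (L.Bij.of_isIso _ _).comp (H.real.bij_stgTo_left h.w (n := p - 1) (by omega)
    (fun j a b => H.d2 hv e hk.add_one a (by omega))
    (H.deg_left ((degIso_left h hY hB hX hr (p - 1)).mono
      (Set.singleton_subset_iff.2 (by
        change T < _
        rwa [pred_succ H]))) l))

theorem van_c1_left (h : IsAttach i x χ) (hv : HV X) (hY : PosT Y 0) (hB : PosT B.X 0)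
    (hX : PosT X r) (hr : 0 ≤ r) (e : Nonempty (st.obj X ≅ c.obj (k, g))) (hk : Even k) (l : ℤ)
    (a : Lam) {T : ℤ} (hT : T < p * r) :
    c.Van (st.obj Y ⊗ st.obj (cone (c1 h.w))) (l, (a, T)) :=
  (H.real.cone (isPushout_cone _)).van _ _ _
    (Surj.of_bijective (bij_c1_left H h hv hY hB hX hr e hk _ a hT))
    (Inj.of_bijective (bij_c1_left H h hv hY hB hX hr e hk _ a hT))

theorem stab_odd {f : ℕ} (hP : P < p * f) (att : IsAttach i x χ) (hX : NF X (a, f) k)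
    (hk : Even k) (hY : PosT Y 0) (hB : PosT B.X 0)
    (h : ∀ b, Stab τ P (st.obj Y ⊗ st.obj B.X) b W) (b : Lam) :
    Stab τ P (st.obj Y ⊗ st.obj B'.X) b (W + f) :=
  Stab.cone ((H.real.cone (isPushout_cone (c1 att.w))).whiskerLeft _)
    (H.stab_cone (H.nf hX) x (H.neg_left hY hB) h b)
    (Stab.of_van fun l _ hT => van_c1_left H att (nf_hv hX) hY hB
      (nf_posT hX le_rfl) (Int.natCast_nonneg f) (H.nf hX) hk l b (hT.trans_lt hP))

variable {ok : ℕ → MM → Prop} {w : ℕ → ℕ} {T0 T : CommMon MM} {n : ℕ}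

theorem stab_tc_left (hP : ∀ j, P < p * w j) (h : OddCells ok w)
    (tc : TC ok T0 n T) (hY : PosT Y 0) (h0 : PosT T0.X 0)
    (h1 : ∀ b, Stab τ P (st.obj Y ⊗ st.obj T0.X) b W) (b : Lam) :
    Stab τ P (st.obj Y ⊗ st.obj T.X) b (W + (∑ j ∈ Finset.range n, w j : ℕ)) := by
  induction tc generalizing b with
  | nil => simpa using h1 b
  | cons tc s k ih =>
    obtain ⟨-, a, l, k2, k3⟩ := h _ _ k
    rw [Finset.sum_range_succ, Nat.cast_add, ← add_assoc]
    exact stab_odd H (hP _) s.att k2 k3 hY (h.posT tc h0) ih b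

theorem stab_tc (hP : ∀ j, P < p * w j) (h : OddCells ok w)
    (tc : TC ok T0 n T) (h0 : PosT T0.X 0) (h1 : ∀ b, Stab τ P (st.obj T0.X) b W) (b : Lam) :
    Stab τ P (st.obj T.X) b (W + (∑ j ∈ Finset.range n, w j : ℕ)) :=
  let e : ∀ X : MM, st.obj (𝟙_ MM) ⊗ st.obj X ≅ st.obj X := fun X =>
    Functor.Monoidal.μIso st _ _ ≪≫ st.mapIso (λ_ X)
  (stab_tc_left H hP h tc posT_unit h0 (fun b => (h1 b).of_iso (e _).symm) b).of_iso (e _)

theorem stab_tc_le0 (hP : ∀ j, P < p * w j) (h : OddCells ok w) (tc : TC ok T0 n T)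
    (h0 : PosT T0.X 0) (h1 : Le0 T0.X) (a : Lam) :
    Stab τ P (st.obj T.X) a (∑ j ∈ Finset.range n, w j : ℕ) := by
  simpa only [zero_add] using stab_tc H hP h tc h0 (H.stab_le0 h1 P) a

theorem stab_tc_le0_left (hP : ∀ j, P < p * w j) (h : OddCells ok w) (tc : TC ok T0 n T)
    (hY : PosT Y 0) (hY' : Le0 Y) (h0 : PosT T0.X 0) (h1 : Le0 T0.X) (a : Lam) :
    Stab τ P (st.obj Y ⊗ st.obj T.X) a (∑ j ∈ Finset.range n, w j : ℕ) := by
  simpa only [zero_add] using stab_tc_left H hP h tc hY h0 (H.stab_le0_left hY' h1 P) a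

end world

section equi

open Vale.Agent.P257.W Vale.Agent.P257.L Vale.Agent.P257.N Vale.Agent.P257.K
open Equiv (Perm)

variable {ι : Type} [hp : Fact p.Prime] {Y : Action MM (Perm ι)} {g : Gam} {r : ℤ}
  {Z Z' : CommMon (Action MM (Perm ι))} {y : Y ⟶ Z.X} {z : Z ⟶ Z'} {ξ : Y ⊗ CI _ ⟶ Z'.X}

theorem bij_c1_hom (h : IsAttach z y ξ) (hv : HV Y.V) (hZ : PosT Z.X.V 0) (hY : PosT Y.V r)
    (hr : 0 ≤ r) {k : ℤ} (e : Nonempty ((sE p).obj Y.V ≅ (cE p).obj (k, g))) (hk : Even k)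
    (c : Lam) {T : ℤ} (hT : T < p * r) (l : ℤ) :
    Bij ((cE p).obj (l, (c, T))) ((sE p).map (c1 h.w).hom) := by
  obtain ⟨i, hi⟩ := exists_c1_hom h
  refine Bij.of_comp_left (Bij.of_isIso _ ((sE p).map i.hom)) ?_
  rw [← Functor.map_comp, hi]
  exact bij_c1 (worldE hp.out) h.und hv hZ hY hr e hk l c hT

omit hp in
theorem bij_ah_hom (h : IsAttach z y ξ) (hv : HV Y.V) (hZ : PosT Z.X.V 0) (hY : PosT Y.V 1)
    (e : IsZero ((sE p).obj Y.V)) (c : Lam) (T : ℤ) (l : ℤ) :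
    Bij ((cE p).obj (l, (c, T))) ((sE p).map (ah z).hom) :=
  P257.F.at2 h.und hv hZ hY (.of_isZero e) (c, T) l

end equi

end Vale.Agent.P257.G.R
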