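import Vale.Agent.N257.Cube
import Vale.Agent.N257.Low
import Vale.Agent.P257.N.Base

/-!
# P257, rescaled windows: the cube and its first stage agree below `(p - 1) * s`
-/

open CategoryTheory MonoidalCategory Limits Functor.LaxMonoidal Functor.OplaxMonoidal

namespace Vale.Agent.P257.G.R

open Vale.Agent.P251.H Vale.Agent.P251.H.StabInput
open Equiv (Perm)

set_option linter.unusedSectionVars false

section cb

open Vale.Agent.P257.D Vale.Agent.P257.C Vale.Agent.P257.E Vale.Agent.P257.M Vale.Agent.P257.K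
open Vale.Agent.P257.W (cE sE SIso van_of_posT)
open Vale.Agent.P257.Z

variable {p s : ℕ} {ι : Type} [Finite ι] [Fact p.Prime] [hι : Fact (Nat.card ι = p)]
  [DecidableEq ι] {e e' : ℤˣ} {l T : ℤ} {a : Lam} {W : SC (Dh (Gr.inc O (0 : Gam)) p ι)}
  {X : Action MM (Perm ι)}

variable [Nontrivial ι] (h3 : 3 ≤ p) (hW : GC (Rh (Gr.inc O (0 : Gam)) p ι) (cE p) e (l, (a, T)) W)
  (hX : PosT X.V 0) (hs : Sg e' ((Rh (Gr.inc O (0 : Gam)) p ι).obj ((st _).obj X)))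
  (hT : T < (p - 1) * s)
include h3 hW hX hs hT

theorem zr_layer {j : ℕ} (hj : 2 ≤ j) : Zr (W ⊗ (SHh _ p ι).obj (AA ι))
    ((st _).obj X ⊗ (st _).obj (RT ι (j * s) ⊗ (JA (Perm ι) MM).obj (SA ι False j))) := by
  have C := ctx (Gr.inc O (0 : Gam)) p ι
  have hc := hι.out
  by_cases h : j + 2 ≤ Nat.card ι
  · have h1 : Sg 1 ((Rh (Gr.inc O (0 : Gam)) p ι).obj ((st _).obj (RT ι (j * s)))) :=
      Sg.of_act fun _ => (sE p).map_id _
    exact (C.zr_A_tgt (hc ▸ h3) hj h hW.sg (Ctx.sg_tensor hs h1)).of_iso (Iso.refl _) (α_ _ _ _)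
  · obtain ⟨k⟩ := hW.cell
    have h1 : PosT (X.V ⊗ (RT ι (j * s) ⊗ (JA (Perm ι) MM).obj (SA ι False j)).V) (j * s : ℕ) :=
      hX.tensor' (supp_RT _) fun _ hp _ hq _ hr =>
        ((zero_add _).ge.trans (add_le_add hp hq.2)).trans hr.2
    refine C.obs fun n _ => Zr.of_iso (W := (cE p).obj ((l, (a, T)) + n • (1, 0)))
      (van_of_posT h1 ?_ _) ((k ⊗ᵢ tpowC (SIso p) n) ≪≫ (cE p).add _ _).symm (Iso.refl _)
    change T + n • (0 : ℤ) < (j * s : ℕ)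
    rw [smul_zero, add_zero, Nat.cast_mul]
    exact hT.trans_le (mul_le_mul_of_nonneg_right (by omega) (Int.natCast_nonneg s))

theorem bij_ck (h0 : 0 < s) {k : ℕ} (h1 : 1 ≤ k) (hk : k ≤ Nat.card ι) :
    L.Bij (W ⊗ (SHh _ p ι).obj (AA ι)) ((st _).obj X ◁ (st _).map (ck ι s h1)) := by
  induction k, h1 using Nat.le_induction with
  | base =>
    rw [ck_refl]
    exact L.Bij.of_isIso _ _
  | succ k h1 ih =>
    obtain ⟨Z, hZ, q, hq⟩ := exists_cok (ι := ι) h0 hk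
    obtain ⟨r, t⟩ := tr_SHx _ _ _ (L.scTri_hCof (Dh (Gr.inc O (0 : Gam)) p ι) (hCof_ck h0 hk) hZ hq)
    rw [← ck_ck h1 (Nat.le_succ k), Functor.map_comp, MonoidalCategory.whiskerLeft_comp]
    exact (ih (by omega)).comp (t.post_bijective (zr_layer h3 hW hX hs hT (by omega))
      ((zr_layer (l := l + 1) (a := a) h3 ((hW.tensor ((ctx _ p ι).gc_S (SIso p))).cast rfl
        (by simp)) hX hs hT (by omega)).of_iso (shuf _ _ _) (Iso.refl _)))

theorem bij_cb (h0 : 0 < s) : L.Bij ((st _).obj ((JA (Perm ι) MM).obj (AA ι)) ⊗ W)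
    ((st (Dh (Gr.inc O (0 : Gam)) p ι)).map (X ◁ cb ι h0)) := by
  rw [cb_eq, MonoidalCategory.whiskerLeft_comp, Functor.map_comp]
  exact (L.Bij.of_isIso _ _).comp ((bij_ck h3 hW hX hs hT h0 Nat.card_pos le_rfl).of_iso (β_ _ _))

omit hW in
theorem bij_cb_tau (h0 : 0 < s) (l : ℤ) (a : Lam) :
    L.Bij ((st _).obj ((JA (Perm ι) MM).obj (AA ι)) ⊗ (τh _ p ι).obj ((cE p).obj (l, (a, T))))
      ((st (Dh (Gr.inc O (0 : Gam)) p ι)).map (X ◁ cb ι h0)) :=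
  bij_cb h3 (gc_tau _) hX hs hT h0

end cb

section base

open Vale.Agent.P251.M (IsInv)
open Vale.Agent.P257.A Vale.Agent.P257.T Vale.Agent.P257.K Vale.Agent.P257.L
open Vale.Agent.P257.M Vale.Agent.P257.C Vale.Agent.P257.W Vale.Agent.P257.N
open Vale.Agent.P257.E (triv JA tt tt_nat tt_assoc tau_st tauRsA)
open Vale.Agent.P257.F (DH sH RH RM)
open Vale.Agent.P257.Z (Sg AA DA VA RT tA fld)

variable {ι : Type} [Finite ι] [Nontrivial ι] [DecidableEq ι] {p s : ℕ} [hp : Fact p.Prime]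
  [hι : Fact (Nat.card ι = p)] {P : ℤ} {A : MM} {B : CommMon MM} {X Y : Action MM (Perm ι)}

variable (s) in
/-- the transfer -/
noncomputable def trf (τ : 𝟙_ _ ⟶ (JA _ MM ⋙ sH ι p).obj (DA ι)) :
    (kP ι p).obj (RT ι s) ⟶ (kP ι p).obj (QD ι s) :=
  (Kl.ks _).map ((ρ_ ((sH ι p).obj (RT ι s))).inv ≫ _ ◁ τ)

theorem sH_fd : (sH ι p).map (fd ι s) =
    (sH ι p).obj (RT ι s) ◁ fld (JA _ MM ⋙ sH ι p) ≫ (ρ_ _).hom ≫ (sH ι p).map (tA ι s) := by
  rw [fd, tensorHom_def', Category.assoc, unitors_equal, rightUnitor_naturality, Functor.map_comp,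
    Functor.map_comp, SC.st_whiskerLeft, SC.st_rightUnitor_hom, Functor.map_comp]
  exact congrArg (fun x => _ ◁ (_ ≫ x) ≫ _) (Category.comp_id _).symm

variable (C : CX ι p) (h3 : 3 ≤ Nat.card ι)
include C h3

omit C in
theorem trf_fd [Fintype ι] {C : CX ι p} {τ} (hτ : C.IsTau τ) :
    trf s τ ≫ (kP ι p).map (fd ι s) = p • (kP ι p).map (tA ι s) := by
  have h : (Kl.ks (Sh ι (DH ι p))).map (τ ≫ fld (JA _ MM ⋙ sH ι p)) = p • 𝟙 _ := Kl.hom_ext (by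
    have k := C.tau_fld h3 hτ
    rw [hι.out, show Z.aug (JA _ MM ⋙ sH ι p) = ComonObj.counit from (diag (DH ι p)).counit.symm]
      at k
    refine (Kl.un_ks _).trans (Eq.trans ?_ (rfl : p • Kl.ee _ (𝟙_ _) = _))
    rw [Kl.ee, unitors_equal, rightUnitor_naturality, Category.assoc, k, Preadditive.comp_nsmul])
  rw [trf, Functor.comp_map, sH_fd, ← Functor.map_comp, Category.assoc,
    ← MonoidalCategory.whiskerLeft_comp_assoc, Functor.map_comp, Functor.map_comp,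
    Kl.ks_whiskerLeft, h, Functor.map_comp]
  exact whiskerLeft_nsmul _ _

theorem bij_trf_left [Fintype ι] {τ} (hτ : C.IsTau τ) (T : EE p) (A : MM) :
    Bij ((kT ι p).obj T) ((kP ι p).obj ((triv _).obj A) ◁ trf s τ) :=
  bij_ks_left.2 (bij_trf_aux (bij_trf C h3 hτ (sg_tau T)
    (X := (sH ι p).obj ((triv _).obj A ⊗ RT ι s))
    (mul_one (1 : ℤˣ) ▸ F.sg_map_tensor (F.sg_map_triv (sE p) _) (F.sg_map_triv (sE p) _))))

theorem bij_fd {T W : ℤ} {c : Lam} (hs : V.Stab (tE p) P ((sE p).obj A) c W) (hW : W + s ≤ T)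
    (hT : T ≤ P) (l : ℤ) : Bij ((cK ι p).obj (l, (c, T)))
      ((kP ι p).obj (RM ι ⊗ (triv _).obj A) ◁ (kP ι p).map (fd ι s)) := by
  have h2 := bijK_left C F.nf0_RM (z := (triv _).obj A ◁ tA ι s ≫ (ρ_ _).hom) (fun l => by
    rw [Action.comp_hom, Action.whiskerLeft_hom, Z.tA_hom, Action.rightUnitor_hom_hom]
    exact (worldE hp.out).bij_tX hs hW hT l) l
  rw [Functor.comp_map, Functor.map_comp, SC.st_whiskerLeft, SC.st_rightUnitor_hom] at h2
  rw [Functor.comp_map, sH_fd]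
  exact bij_ks_left.2 (bij_fd_aux (bij_fold C h3 (sg_tau ((cE p).obj (l, (c, T))))
    (X := (sH ι p).obj ((RM ι ⊗ (triv _).obj A) ⊗ RT ι s))
    (mul_one (-1 : ℤˣ) ▸ F.sg_map_tensor (sg_RA A) (F.sg_map_triv (sE p) _)))
    (bij_ks_left.1 h2))

theorem van_cb (h0 : 0 < s) (hP : P < (p - 1) * s) (hA : PosT A 0) {T W : ℤ} {c : Lam}
    (hs : V.Stab (tE p) P ((sE p).obj A) c W) (hW : W + s ≤ T) (hT : T ≤ P) (l : ℤ) :
    (cK ι p).Van ((kP ι p).obj ((RM ι ⊗ (triv _).obj A) ⊗ (Cb ι s).X)) (l, (c, T)) := by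
  have h := bij_cb_tau (hι.out ▸ h3 : 3 ≤ p) (X := RM ι ⊗ (triv _).obj A)
    (V.posT_mono (V.posT_tensor (V.posT_J _) hA) (by simp)) (sg_RA A) (T := T) (hT.trans_lt hP)
    h0 l c
  have k : Bij ((cK ι p).obj (l, (c, T))) ((kP ι p).map ((RM ι ⊗ (triv _).obj A) ◁ cb ι h0)) :=
    Kl.bij_ks.2 h
  exact V.Surj.van (.of_bijective k) ((isCone_kP (fd ι s)).van _ l _
    (.of_bijective (bij_fd C h3 hs hW hT l)) (.of_bijective (bij_fd C h3 hs hW hT _)))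

theorem fb_trf [Fintype ι] {τ} (hτ : C.IsTau τ)
    (e : (sE p).obj A ≅ (sE p).obj (rp (0, (s : ℤ)))) {j : QD ι s ⟶ Y}
    [IsIso ((sH ι p).map j)] {e₀ : (uL (SM ι)).obj A ⟶ Y}
    (h : kφ p e₀ = (kT ι p).map e.hom ≫ trf s τ ≫ (kP ι p).map j) (B : MM) (R : EE p) :
    FB (kT ι p) R (δ _ _ _ ≫ (kφ p (prS (SM ι) ((triv _).obj B)) ⊗ₘ kφ p (stb (De p) e₀))) := by
  have k : Bij ((kT ι p).obj R) ((kT ι p).obj ((sE p).obj B) ◁ (kφ p (stb (De p) e₀) ≫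
      (kP ι p).map (tt (lamU _ (De p)) Y))) := by
    have : IsIso ((kP ι p).map j) := inferInstanceAs (IsIso ((Kl.ks _).map ((sH ι p).map j)))
    rw [kφ_stb, h, MonoidalCategory.whiskerLeft_comp, MonoidalCategory.whiskerLeft_comp,
      MonoidalCategory.whiskerLeft_comp]
    exact (Bij.of_isIso _ _).comp ((Bij.of_isIso _ _).comp
      ((bij_trf_left C h3 hτ R B).comp (Bij.of_isIso _ _)))
  rw [MonoidalCategory.whiskerLeft_comp] at k
  rw [kφ_prS, id_tensorHom, ← Category.id_comp (δ _ _ _ ≫ _)]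
  exact (fb_id C h3 R _).post ((Bij.of_isIso _ _).comp ((Bij.of_isIso _ _).of_comp_right k))

end base

end Vale.Agent.P257.G.R
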