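import Vale.Agent.N257.Low
import Vale.Agent.P257.G.Cnt

/-!
# P257, rescaled windows: the counting lemma; only the critical cells are counted

* `Ex ok n f` : `f` is a composition of cell attachments of total cost at most `n`;
* `Nv p X m` : cells of filtration degree zero, of cost `0` if they are above the vanishing line.
-/

open CategoryTheory MonoidalCategory Limits Pointwise

namespace Vale.Agent.P257.G.R

open Vale.Agent.P251.H Vale.Agent.P251.H.StabInput Vale.Agent.P257.A Vale.Agent.P257.C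
open Vale.Agent.P257.D Vale.Agent.P257.M Vale.Agent.P257.V

universe v u v' u'

section ex

variable {M : Type u} [Category.{v} M] [MonoidalCategory M] [SymmetricCategory M]
    [MonoidalClosed M] [HasZeroMorphisms M] [HasColimitsOfSize.{0, 0} M] [StabInput M]

/-- compositions of cell attachments of total cost at most `n` -/
inductive Ex (ok : M → ℕ → Prop) : ℕ → {A A' : CommMon M} → (A ⟶ A') → Prop
  | iso (n : ℕ) {A A' : CommMon M} (f : A ⟶ A') [IsIso f] : Ex ok n f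
  | step {n m : ℕ} {A A' A'' : CommMon M} {f : A ⟶ A'} (h : Ex ok n f) (s : TStep A' A'')
      (hs : ok s.X m) : Ex ok (n + m) (f ≫ s.i)

namespace Ex

variable {P : M → ℕ → Prop} {m n : ℕ} {B B' B'' : CommMon M}

theorem add {f : B ⟶ B'} (h : Ex P n f) (k : ℕ) : Ex P (k + n) f := by
  induction h with
  | iso n f => exact .iso _ f
  | step _ s hs ih =>
    rw [← add_assoc]
    exact .step ih s hs

theorem mono {f : B ⟶ B'} (h : Ex P m f) (k : m ≤ n) : Ex P n f := by
  have := h.add (n - m)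
  rwa [Nat.sub_add_cancel k] at this

theorem comp_iso {f : B ⟶ B'} (h : Ex P n f) (g : B' ⟶ B'') [IsIso g] : Ex P n (f ≫ g) := by
  cases h with
  | iso => exact .iso _ _
  | step h s hs =>
    rw [Category.assoc]
    exact .step h ⟨s.X, s.v, s.i ≫ g, s.χ ≫ ah g, s.att.comp_iso (asIso g)⟩ hs

theorem trans {f : B ⟶ B'} (h : Ex P m f) {g : B' ⟶ B''} (k : Ex P n g) :
    Ex P (m + n) (f ≫ g) := by
  induction k with
  | iso n g => exact (h.comp_iso g).mono (Nat.le_add_right _ _)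
  | step _ s hs ih =>
    rw [← Category.assoc, ← add_assoc]
    exact .step (ih h) s hs

theorem single (s : TStep B B') (hs : P s.X m) : Ex P m s.i := by
  simpa using (Ex.iso (ok := P) 0 (𝟙 B)).step s hs

theorem exists_isPushout {f : B ⟶ B'} (h : Ex P n f) {C : CommMon M} (u : B ⟶ C) :
    ∃ (C' : CommMon M) (g : C ⟶ C') (u' : B' ⟶ C'), IsPushout f u u' g ∧ Ex P n g := by
  induction h with
  | iso n f => exact ⟨C, 𝟙 C, inv f ≫ u, IsPushout.of_horiz_isIso ⟨by simp⟩, .iso _ _⟩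
  | step _ s hs ih =>
    obtain ⟨C', g, u', H, k⟩ := ih u
    obtain ⟨C'', i', χ', h'⟩ := exists_isAttach (s.v ≫ ah u')
    obtain ⟨u'', h3, h4⟩ := s.att.desc (u' ≫ i') χ' (by rw [h'.w, ah_comp, Category.assoc])
    exact ⟨C'', g ≫ i', u'', H.paste_horiz (s.att.isPushout h' h3 h4),
      .step k ⟨s.X, _, i', χ', h'⟩ hs⟩

theorem of_isPushout {f : B ⟶ B'} (h : Ex P n f) {C C' : CommMon M} {u : B ⟶ C} {g : C ⟶ C'}
    {u' : B' ⟶ C'} (H : IsPushout f u u' g) : Ex P n g := by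
  obtain ⟨C₁, g₁, u₁, H₁, k⟩ := h.exists_isPushout u
  have e : g₁ ≫ (H₁.isoIsPushout _ _ H).hom = g := IsPushout.inr_isoIsPushout_hom _ _ _ _
  rw [← e]
  exact k.comp_iso _

end Ex

end ex

section top

variable {C : Type u} [Category.{v} C] [MonoidalCategory C] [SymmetricCategory C] [Preadditive C]
  [MonoidalPreadditive C] {Λ : Type} [AddCommGroup Λ] {c : Cells C (ℤ × (Λ × ℤ))}
  {τ : TCone c} {π : Par Λ} {B B' : C} {L E : ℕ → C} {g : Λ} {ω : Λ → ℤ → Prop} {N d : ℤ} {f : ℕ}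

theorem pr_top (h : Pr τ π B ω N) (hF : Filt c B B' L E) (hg : 0 ≤ π.ℓ g) (m : ℕ)
    (hE : ∀ a : Λ, π.ℓ a ≤ π.Lm → ∀ l T : ℤ, T ≤ π.P → c.Van (E m) (l, (a, T)))
    (h1 : c.Conn (L 1) (g, f) d) (h2 : ∀ r, 2 ≤ r → r ≤ m → c.TConn (L r) ∅)
    (hd : π.bd g ≤ π.p * d) : Pr τ π B' (sh ω (one g f)) N := by
  have := h.filt (n := 0) (ω' := sh ω (one g f)) hF le_rfl (fun _ _ l => (sh_one.1 l).1) fun a ha =>
    ⟨m, hE a ha, fun k k1 k2 => ⟨g, d, f, hg, by
      by_cases h : k = 1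
      · subst h
        exact Good.of_conn h1 (Int.natCast_nonneg f) le_rfl
      · exact Good.of_empty (h2 k (by omega) k2), by simpa using hd, fun _ l => (sh_one.1 l).2⟩⟩
  simpa using this

end top

variable {C : Type u'} [Category.{v'} C] [Preadditive C] [MonoidalCategory C] [SymmetricCategory C]
  [MonoidalPreadditive C] {st : MM ⥤ C} [st.Monoidal] {c : Cells C (ℤ × Gam)} {τ : TCone c} {p : ℕ}

section world

variable (H : World st c τ p) {X Y : MM} {a : Lam} {k N : ℤ} {B B' : CommMon MM}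
  {i : B ⟶ B'} {x : X ⟶ B.X} {χ : X ⊗ CI MM ⟶ B'.X} {P Lm : ℕ} {hp : 0 < p}
  {ω : Lam → ℤ → Prop}
include H

/-- The layers of a pair of cells. -/
theorem good_pair (hT : Tr τ) {f : ℕ} (hP : P < p * f) (hv : HV X)
    (e : Nonempty (st.obj X ≅ c.obj (k, (a, 0)))) (hk : Odd k) {j : ℕ} (h1 : 1 ≤ j)
    (hj : j < (p - 1) * p) {β : ℤ} (hβ : β ≤ p * (k + 1) + 2 * p - 3) :
    ∃ r, Good τ P (st.obj (DP j (cone (tX X f) ⊗ S MM))) (j • a) r f ∧ j * β ≤ p * r := by
  have h2 := H.two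
  have hq : (p - 1) * p < p ^ 2 := by
    rw [sq]
    exact Nat.mul_lt_mul_of_pos_right (by omega) (by omega)
  obtain ⟨u, r, hr, rfl⟩ : ∃ u r, r < p ∧ j = u * p + r :=
    ⟨j / p, j % p, Nat.mod_lt _ (by omega), (Nat.div_add_mod' j p).symm⟩
  have hu : u + 1 < p := by
    by_contra k9
    have := Nat.mul_le_mul_right p (show p - 1 ≤ u by omega)
    omega
  have hP' : (P : ℤ) + ((u + 1) * (P + 1) : ℕ) < p * (P + 1 : ℕ) := by
    have := Nat.mul_le_mul_right (P + 1) (show u + 1 + 1 ≤ p by omega)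
    rw [add_mul (u + 1), one_mul] at this
    exact_mod_cast (show P + (u + 1) * (P + 1) < p * (P + 1) by omega)
  have k3 := good_of_dom (τ := τ) (P := P + ((u + 1) * (P + 1) : ℕ)) (w := P + 1) (g := a)
    (m := u * p + r) (L := fun j => st.obj (DP j (cone (tX X (P + 1)) ⊗ S MM))) (by omega : 0 < p)
    (ρ := p * (k + 1) + 2 * p - 3) (ρ' := fun r => r * |β|)
    (fun j l l' => H.d4 (hv_cone_tX hv (P + 1)) l (by omega)) (by
      obtain ⟨j, hj⟩ : ∃ j, p = j + 1 := ⟨p - 1, by omega⟩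
      have := good_low H (by positivity) hP' hv e hk j hj.ge _ fun _ => le_rfl
      rwa [← hj] at this) (fun r r1 r2 => by
      obtain ⟨j, rfl⟩ : ∃ j, r = j + 1 := ⟨r - 1, by omega⟩
      exact good_low H (by positivity) hP' hv e hk j r2.le _ fun l => absurd l r2.ne) (by simp) u r
    hr h1 le_rfl
  refine ⟨u * (p * (k + 1) + 2 * p - 3) + r * |β|, ?_, ?_⟩
  · obtain ⟨j, hj'⟩ : ∃ j, u * p + r = j + 1 := ⟨u * p + r - 1, by omega⟩
    rw [hj'] at k3 ⊢
    have dl : ∀ f : ℕ, Dl τ f (st.map (tX X f ▷ S MM)) := fun f => by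
      rw [Functor.Monoidal.map_whiskerRight]
      exact ((H.dl X f).whiskerRight _).of_iso _ (Cells.TEq.of_isIso _) _
    exact good_kos H.real hT (isPushout_cone_whiskerRight (tX X f) (S MM))
      (isPushout_cone_whiskerRight (tX X (P + 1)) (S MM)) (dl f) (dl (P + 1))
      (by rw [add_mul]; omega) (Int.natCast_nonneg P) j
      (fun l hl => Cells.TConn.mono (conn_ev H hv e (by omega)) up_subset_at)
      (fun l => high H (by exact_mod_cast hP) hv e hk (by omega))
      (fun l => high H hP' hv e hk (by omega)) k3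
  · have a1 : (u * p : ℤ) * β ≤ u * p * (p * (k + 1) + 2 * p - 3) :=
      mul_le_mul_of_nonneg_left hβ (by positivity)
    have a2 : (r : ℤ) * β ≤ r * |β| := mul_le_mul_of_nonneg_left (le_abs_self β) (by positivity)
    have a3 : (r : ℤ) * |β| ≤ p * (r * |β|) := le_mul_of_one_le_left (by positivity) (by omega)
    push_cast
    nlinarith

/-- The cells of filtration degree zero above the line. -/
theorem pr_free (h : Pr τ (par p P Lm hp) (st.obj B.X) ω N) (hω : Mn ω) (hL : Lm < p ^ 2)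
    (hB : PosL B.X) (att : IsAttach i x χ) (hX : NF X (a, 0) k) (o0 : a ∈ Cn) (o1 : 1 ≤ ell a)
    (hd : bd p a ≤ p * (k + 1)) : Pr τ (par p P Lm hp) (st.obj B'.X) ω N :=
  h.crude (H.real.filt att.w) o0.1 (hω a o0) (fun a ha l (T : ℤ) (_ : T ≤ P) =>
    H.van_L att hB (nf_supp hX wL_mono o1) (Lm := Lm) a ha l T) (fun _ _ l =>
      conn_ev H (nf_hv hX) (H.nf hX) (l.trans_lt hL)) hd

/-- Odd cells of positive filtration degree. -/
theorem pr_odd {f : ℕ} (h : Pr τ (par p P Lm hp) (st.obj B.X) ω N) (hP : P < p * f)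
    (hB : PosT B.X 0) (att : IsAttach i x χ) (hX : NF X (a, f) k) (hk : Even k)
    (ha : 0 ≤ ell a) (hd : bd p a ≤ p * (k + 1)) :
    Pr τ (par p P Lm hp) (st.obj B'.X) (sh ω (one a f)) N := by
  obtain ⟨e⟩ := H.susp (H.nf hX)
  have hP' : (P : ℤ) < p * f := by exact_mod_cast hP
  exact pr_top h (H.real.filt att.w) ha (p - 1) (fun a _ l T hT => H.real.van_cone
    (fun l => bij_top H att hB (nf_posT hX le_rfl) (Int.natCast_nonneg f) l a (hT.trans_lt hP'))
      l) (((Cells.Conn.cell _ _).of_iso e.symm).of_iso (st.mapIso (DP1 _)))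
    (fun r l l' => H.d2 (nf_hv hX) e hk.add_one l (by omega)) hd

/-- The pair `ν_{m, ∅}`, `τ_m`. -/
theorem pr_pair (hT : Tr τ) {f m : ℕ} {x : cone (tX X f) ⟶ B.X} {χ : cone (tX X f) ⊗ CI MM ⟶ B'.X}
    (h : Pr τ (par p P Lm hp) (st.obj B.X) ω N) (hω : Mn ω) (hP : P < p * f)
    (hL : Lm < (p - 1) * p) (hB : PosL B.X) (att : IsAttach i x χ)
    (hX : NF X (ee m, 0) (dd p m - 2)) :
    Pr τ (par p P Lm hp) (st.obj B'.X) (sh ω (one (ee m) f)) N := by
  have h1 : (1 : ℤ) ≤ 2 ^ m := one_le_pow₀ one_le_two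
  refine h.pair (H.real.filt att.w) (ee_mem m).1 (hω _ (ee_mem m)) (fun a ha' l T _ => H.van_L att hB
    (supp_cone_tX wL_mono (nf_supp hX wL_mono (h1.trans (ell_ee m).ge)) f) a ha' l T)
    fun j l l' => good_pair H hT hP (nf_hv hX) (H.nf hX) ⟨p ^ m - 2, by rw [dd]; ring⟩ l
      (l'.trans_lt hL) ?_
  change bd p (ee m) ≤ _
  rw [bd_apply, DD_ee, sz_ee, ell_ee]
  linarith

end world

/-- the sources of the cells of filtration degree zero, with their cost -/
def Nv (p : ℕ) (X : MM) (m : ℕ) : Prop :=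
  ∃ (a : Lam) (k : ℤ), NF X (a, 0) k ∧ Ok p a k ∧ (m = 0 → bd p a ≤ p * (k + 1))

variable {P Lm : ℕ} {hp : 0 < p} (H : World st c τ p) {a : Lam} {X : MM} {B B' : CommMon MM}
  {i : B ⟶ B'} {x : X ⟶ B.X} {χ : X ⊗ CI MM ⟶ B'.X} {k : ℤ}
include H

theorem up_ex (hL : Lm < p ^ 2) {n : ℕ} (h : Ex (Nv p) n i) :
    UP st τ (par p P Lm hp) i 0 n := by
  induction h with
  | iso n f => exact (UP.of_isIso f).mono le_rfl (Int.natCast_nonneg n)
  | @step n m _ _ _ _ _ s hs ih =>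
    obtain ⟨a, k, hX, ok, h0⟩ := hs
    refine (ih.comp (UP.of_attach (D := 0) (dN := m) s.att (nf_posT hX le_rfl)
      (nf_posL hX ok.1.1) fun att hW h => ?_)).mono (add_zero _).le (Nat.cast_add _ _).ge
    by_cases hm : m = 0
    · exact (pr_free H h.prof hW hL h.posL att hX ok.1 ok.2.1 (h0 hm)).mono (fun _ _ => sh_zero.1)
        (by omega)
    · exact (pr_nu H h.prof hW hL h.posL att hX ok).mono (fun _ _ => sh_zero.1) (by omega)

theorem up_odd {f : ℕ} (hP : P < p * f) (att : IsAttach i x χ) (hX : NF X (a, f) k) (hk : Even k)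
    (ha : 0 ≤ ell a) (hd : bd p a ≤ p * (k + 1)) :
    UP st τ (par p P Lm hp) i (one a f) 0 :=
  UP.of_attach att (nf_posT hX (Int.natCast_nonneg f)) (nf_posL hX ha) fun att _ h => by
    rw [add_zero]
    exact pr_odd H h.prof hP h.posT att hX hk ha hd

theorem up_pair (hT : Tr τ) {f m : ℕ} {x : cone (tX X f) ⟶ B.X} {χ : cone (tX X f) ⊗ CI MM ⟶ B'.X}
    (hP : P < p * f) (hL : Lm < (p - 1) * p) (att : IsAttach i x χ)
    (hX : NF X (ee m, 0) (dd p m - 2)) :
    UP st τ (par p P Lm hp) i (one (ee m) f) 0 :=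
  UP.of_attach att (supp_cone_tX wT_mono (nf_posT hX le_rfl) f)
    (supp_cone_tX wL_mono (nf_posL hX (ee_mem m).1) f) fun att hW h => by
    rw [add_zero]
    exact pr_pair H hT h.prof hW hP hL h.posL att hX

end Vale.Agent.P257.G.R
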