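import Vale.Agent.P257.Z.Cube

/-!
# P257, rescaled windows: the cube `[0, ∞) ^ ι`, a point with support of size `k` in degree `k * s`
-/

open CategoryTheory MonoidalCategory Limits OnePoint MonObj Filter
open scoped NNReal

namespace Vale.Agent.P257.G.R

open Vale.Agent.P251.H Vale.Agent.P251.H.StabInput
open Vale.Agent.P257.D Vale.Agent.P257.D.EF Vale.Agent.P257.C Vale.Agent.P257.E Vale.Agent.P257.M
open Vale.Agent.P257.Z
open Vale.Agent.P251.G (LC)
open Vale.Agent.P251.G.LC (app smash)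
open Equiv (Perm)

variable {ι : Type} [Finite ι] {s j k l n : ℕ}

section stages

variable (ι s) in
/-- the size of the support allowed in degree `g` -/
noncomputable def nn (k : ℕ) (g : Gam) : ℕ := min (min k (Nat.card ι)) (g.2.toNat / s)

omit [Finite ι] in
theorem nn_le (k : ℕ) (g : Gam) : nn ι s k g ≤ Nat.card ι :=
  (min_le_left _ _).trans (min_le_right _ _)

omit [Finite ι] in
theorem nn_mono (h : k ≤ l) {g g' : Gam} (h' : g ≤ g') : nn ι s k g ≤ nn ι s l g' :=
  min_le_min (min_le_min_right _ h) (Nat.div_le_div_right (Int.toNat_le_toNat h'.2))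

variable (ι s k) in
/-- the filtration -/
@[implicit_reducible] noncomputable def fs : FS Gam (TT ι).V where
  K g := (FA ι False (nn ι s k g)).V
  c g := (gι ι False (nn_le k g)).hom
  inj g := Option.map_injective (isClosedEmbedding_flι (nn_le k g)).injective
  i g g' := (finc ι (nn ι s k g) (nn ι s k g')).hom
  w h := by
    rw [finc_eq (nn_mono le_rfl h)]
    exact congrArg Action.Hom.hom (gι_gι _ _)

variable (ι s k) in
/-- the action on the stages -/
noncomputable def actC (g : Perm ι) : (fs ι s k).fil O ⟶ (fs ι s k).fil O :=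
  FS.map O (act (TT ι) g) (fun d => act (FA ι False (nn ι s k d)) g)
    fun d => act_comm (gι ι False (nn_le k d)) g

theorem actC_tot (g : Perm ι) :
    actC ι s k g ≫ (fs ι s k).tot O = (fs ι s k).tot O ≫ (jC JG).map (act (TT ι) g) :=
  FS.map_tot _ _ _

variable (ι s k) in
/-- the stages of the cube -/
@[implicit_reducible] noncomputable def Ck : Action MM (Perm ι) :=
  mkAct ((fs ι s k).fil O) (actC ι s k)
    (by rw [← cancel_mono ((fs ι s k).tot O), actC_tot, act_one, CategoryTheory.Functor.map_id,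
      Category.comp_id, Category.id_comp])
    fun g h => by
      rw [← cancel_mono ((fs ι s k).tot O), Category.assoc, actC_tot, actC_tot, ← Category.assoc,
        actC_tot, Category.assoc, ← Functor.map_comp, act_mul]

variable (ι s k) in
/-- the inclusion in the total space -/
noncomputable def tot : Ck ι s k ⟶ (JA (Perm ι) MM).obj (TT ι) :=
  mkHom ((fs ι s k).tot O) fun g => actC_tot g

instance mono_tot_hom : Mono (tot ι s k).hom := inferInstanceAs (Mono ((fs ι s k).tot O))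

instance mono_tot (s k : ℕ) : Mono (tot ι s k) :=
  (Action.forget _ _).mono_of_mono_map (inferInstanceAs (Mono ((fs ι s k).tot O)))

/-- lifting equivariant maps -/
noncomputable def liftC {X : Action MM (Perm ι)} (f : X ⟶ (JA (Perm ι) MM).obj (TT ι))
    (φ : X.V ⟶ (Ck ι s k).V) (h : φ ≫ (tot ι s k).hom = f.hom) : X ⟶ Ck ι s k :=
  mkHom φ fun g => by
    rw [← cancel_mono (tot ι s k).hom, Category.assoc, Category.assoc, h, act_comm (tot ι s k),
      reassoc_of% h, act_comm f]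

@[reassoc (attr := simp)]
theorem liftC_tot {X : Action MM (Perm ι)} (f : X ⟶ (JA (Perm ι) MM).obj (TT ι))
    (φ : X.V ⟶ (Ck ι s k).V) (h : φ ≫ (tot ι s k).hom = f.hom) : liftC f φ h ≫ tot ι s k = f :=
  Action.hom_ext _ _ h

variable (ι s) in
/-- the inclusions of the stages -/
noncomputable def ck (h : k ≤ l) : Ck ι s k ⟶ Ck ι s l :=
  liftC (tot ι s k) (FS.map O (𝟙 _) (fun d => (gι ι False (nn_mono h (le_refl d))).hom)
    fun _ => (congrArg Action.Hom.hom (gι_gι _ _)).trans (Category.comp_id _).symm)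
    ((FS.map_tot _ _ _).trans (by
      rw [CategoryTheory.Functor.map_id]
      exact Category.comp_id _))

@[reassoc (attr := simp)]
theorem ck_tot (h : k ≤ l) : ck ι s h ≫ tot ι s l = tot ι s k := liftC_tot _ _ _

theorem isIso_ck_app (h : k ≤ l) (x : JG) (h' : 0 ≤ x.deg → nn ι s l x.deg ≤ nn ι s k x.deg) :
    IsIso ((ck ι s h).hom.app x) :=
  FS.isIso_map_app (F := fs ι s k) (F' := fs ι s l) (𝟙 _)
    (fun d => (gι ι False (nn_mono h (le_refl d))).hom)
    (fun _ => (congrArg Action.Hom.hom (gι_gι _ _)).trans (Category.comp_id _).symm) x fun h0 =>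
      have := isIso_gι (ι := ι) (c := False) (nn_mono h (le_refl x.deg)) (h' h0)
      Functor.map_isIso (Action.forget _ _) (gι ι False _)

theorem ck_refl : ck ι s (le_refl k) = 𝟙 _ := by
  rw [← cancel_mono (tot ι s k), ck_tot, Category.id_comp]

theorem ck_ck (h : j ≤ k) (h' : k ≤ l) : ck ι s h ≫ ck ι s h' = ck ι s (h.trans h') := by
  rw [← cancel_mono (tot ι s l), Category.assoc, ck_tot, ck_tot, ck_tot]

variable (j) in
/-- the cells -/
noncomputable def cel (h : k ≤ nn ι s n (0, (j : ℤ))) :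
    RT ι j ⊗ (JA (Perm ι) MM).obj (FA ι False k) ⟶ Ck ι s n :=
  liftC (tA ι j ▷ _ ≫ (λ_ _).hom ≫ (JA _ MM).map (gι ι False (h.trans (nn_le _ _))))
    ((fs ι s n).cell O (g := (0, (j : ℤ))) ⟨le_rfl, Int.natCast_nonneg j⟩ (gι ι False h).hom)
    (((fs ι s n).cell_tot _ _).trans (by
      rw [Action.comp_hom, Action.comp_hom, Action.whiskerRight_hom, tA_hom,
        Action.leftUnitor_hom_hom]
      rfl))

@[reassoc (attr := simp)]
theorem cel_tot (h : k ≤ nn ι s n (0, (j : ℤ))) : cel j h ≫ tot ι s n =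
    tA ι j ▷ _ ≫ (λ_ _).hom ≫ (JA _ MM).map (gι ι False (h.trans (nn_le _ _))) := liftC_tot _ _ _

theorem isIso_cel_app (h : k ≤ nn ι s n (0, (j : ℤ))) {x : JG} (hx : ((0, (j : ℤ)) : Gam) ≤ x.deg)
    (h' : nn ι s n x.deg ≤ k) : IsIso ((cel j h).hom.app x) := by
  have : IsIso ((gι ι False h).hom ≫ (fs ι s n).i (0, (j : ℤ)) x.deg) := by
    have := isIso_gι (ι := ι) (c := False) (h.trans (nn_mono le_rfl hx)) h'
    rw [← gι_gι h (nn_mono le_rfl hx), ← finc_eq (nn_mono le_rfl hx)] at this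
    exact Functor.map_isIso (Action.forget _ _) (gι ι False h ≫ finc ι _ _)
  exact (fs ι s n).isIso_cell_app _ _ hx

omit [Finite ι] in
theorem le_nn (hs : 0 < s) (h1 : k ≤ n) (h2 : k ≤ Nat.card ι) (h3 : k * s ≤ j) :
    k ≤ nn ι s n (0, (j : ℤ)) :=
  le_min (le_min h1 h2) ((Nat.le_div_iff_mul_le hs).2 (by simpa using h3))

/-- the layers -/
theorem isPushout_ck (hs : 0 < s) (h : k + 1 ≤ Nat.card ι) (hj : j = (k + 1) * s) :
    IsPushout (RT ι j ◁ (JA (Perm ι) MM).map (gι ι False (Nat.le_succ k)))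
      (cel j (le_nn hs le_rfl (Nat.le_of_succ_le h)
        ((Nat.mul_le_mul_right s (Nat.le_succ k)).trans hj.ge)))
      (cel j (le_nn hs le_rfl h hj.ge)) (ck ι s (Nat.le_succ k)) := by
  have w : RT ι j ◁ (JA (Perm ι) MM).map (gι ι False (Nat.le_succ k)) ≫
      cel j (le_nn hs le_rfl h hj.ge) = cel j (le_nn hs le_rfl (Nat.le_of_succ_le h)
        ((Nat.mul_le_mul_right s (Nat.le_succ k)).trans hj.ge)) ≫ ck ι s (Nat.le_succ k) := by
    rw [← cancel_mono (tot ι s _), Category.assoc, Category.assoc, ck_tot, cel_tot, cel_tot,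
      whisker_exchange_assoc, leftUnitor_naturality_assoc, ← Functor.map_comp, gι_gι]
  refine isPushout_of_hom (isPushout_of_ev (congrArg Action.Hom.hom w) fun x => ?_)
  have wx := congrArg (fun f => f.hom.app x) w
  by_cases hx : ((0, (j : ℤ)) : Gam) ≤ x.deg
  · have := isIso_cel_app (le_nn hs le_rfl (Nat.le_of_succ_le h)
      ((Nat.mul_le_mul_right s (Nat.le_succ k)).trans hj.ge)) hx
      ((min_le_left _ _).trans (min_le_left _ _))
    have := isIso_cel_app (le_nn hs le_rfl h hj.ge) hx ((min_le_left _ _).trans (min_le_left _ _))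
    exact IsPushout.of_vert_isIso ⟨wx⟩
  · have := (supp_RT (FA ι False k) x hx).isIso (supp_RT (FA ι False (k + 1)) x hx)
      ((RT ι j ◁ (JA (Perm ι) MM).map (gι ι False (Nat.le_succ k))).hom.app x)
    have := isIso_ck_app (ι := ι) (s := s) (Nat.le_succ k) x fun h0 => by
      have h1 : x.deg.2 < j := by
        by_contra h1
        exact hx ⟨h0.1, not_lt.1 h1⟩
      have h2 : x.deg.2.toNat / s < k + 1 := (Nat.div_lt_iff_lt_mul hs).2 (by
        have h3 : 0 ≤ x.deg.2 := h0.2
        omega)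
      unfold nn
      omega
    exact IsPushout.of_horiz_isIso ⟨wx⟩

theorem hCof_ck (hs : 0 < s) (h : k + 1 ≤ Nat.card ι) : HCof (ck ι s (Nat.le_succ k)) :=
  ((hCof_gι _).whiskerLeft _).of_isPushout (isPushout_ck hs h rfl)

theorem exists_cok (hs : 0 < s) (h : k + 1 ≤ Nat.card ι) :
    ∃ (Z : Action MM (Perm ι)) (_ : IsZero Z)
    (q : Ck ι s (k + 1) ⟶ RT ι ((k + 1) * s) ⊗ (JA (Perm ι) MM).obj (SA ι False (k + 1))),
    IsPushout (ck ι s (Nat.le_succ k)) (0 : _ ⟶ Z) q 0 := by
  have h0 : IsZero ((J (Action MM (Perm ι))).obj (LC.of Empty)) := isZero_empty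
  have h1 := StabInput.isPushout_whiskerLeft (RT ι ((k + 1) * s))
    (isPushout_gπ (ι := ι) (c := False) (j := k) h0 0 0)
  have hZ := (tensorLeft (RT ι ((k + 1) * s))).map_isZero h0
  have e : RT ι ((k + 1) * s) ◁ (JA (Perm ι) MM).map (gι ι False (Nat.le_succ k)) ≫
      RT ι ((k + 1) * s) ◁ (JA (Perm ι) MM).map (gπ ι False (k + 1)) =
      cel ((k + 1) * s) (le_nn hs le_rfl (Nat.le_of_succ_le h)
        ((Nat.mul_le_mul_right s (Nat.le_succ k)).trans le_rfl)) ≫ 0 := by
    rw [h1.w, hZ.eq_of_tgt (_ ◁ 0) 0, zero_comp, comp_zero]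
  refine ⟨_, hZ, (isPushout_ck hs h rfl).desc _ 0 e, IsPushout.of_top ?_ ?_ (isPushout_ck hs h rfl)⟩
  · rw [IsPushout.inl_desc, comp_zero]
    rwa [hZ.eq_of_tgt (_ ◁ 0) 0, hZ.eq_of_src (_ ◁ 0) 0] at h1
  · rw [IsPushout.inr_desc, comp_zero]

theorem posT_Ck : PosT (Ck ι s k).V 0 := (fs ι s k).supp.mono fun _ h => h.2

variable (ι s k) in
/-- the unit -/
noncomputable def uC : 𝟙_ _ ⟶ Ck ι s k :=
  liftC (unt ι _ MM) ((fs ι s k).lift (unt ι _ MM).hom
    (fun x => (unt ι (nn ι s k x.deg) MM).hom.app x)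
    fun x z => congrArg (fun f : 𝟙_ (Action MM (Perm ι)) ⟶ _ => fn f.hom z)
      (unt_gι (nn_le k x.deg))) (FS.lift_tot _ _ _ _)

@[reassoc (attr := simp)]
theorem uC_tot : uC ι s k ≫ tot ι s k = unt ι _ MM := liftC_tot _ _ _

@[reassoc (attr := simp)]
theorem uC_ck (h : k ≤ l) : uC ι s k ≫ ck ι s h = uC ι s l := by
  rw [← cancel_mono (tot ι s l), Category.assoc, ck_tot, uC_tot, uC_tot]

instance isIso_uC : IsIso (uC ι s 0) := by
  have key : ∀ (x : JG) (j : ℕ), j = 0 → IsIso ((unt ι j MM).hom.app x) := fun x j h => by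
    subst h
    exact Functor.map_isIso (Action.forget _ _ ⋙ ev x) (unt ι 0 MM)
  have h : ∀ x, IsIso ((uC ι s 0).hom.app x) := fun x => key x _ (by simp [nn])
  have : IsIso (uC ι s 0).hom :=
    (isoMk (fun x => asIso ((uC ι s 0).hom.app x)) fun w => (uC ι s 0).hom.naturality w).isIso_hom
  infer_instance

end stages

section mon

variable (ι s) in
/-- the multiplication of the cube -/
noncomputable def mC : Ck ι s (Nat.card ι) ⊗ Ck ι s (Nat.card ι) ⟶ Ck ι s (Nat.card ι) :=
  liftC ((tot ι s _ ⊗ₘ tot ι s _) ≫ μ[(JM ι).X])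
    (FS.mul O (addP (min_le_left _ _)).hom (fun g g' => (addD ι _ _ _).hom) fun g g' h h' => by
      have h1 : min (Nat.card ι) (nn ι s (Nat.card ι) g + nn ι s (Nat.card ι) g') ≤
          nn ι s (Nat.card ι) (g + g') := by
        have h2 : 0 ≤ g.2 := h.2
        have h3 : 0 ≤ g'.2 := h'.2
        have h4 : (g + g').2.toNat = g.2.toNat + g'.2.toNat := Int.toNat_add h2 h3
        have h5 := Nat.div_add_div_le_add_div (x := g.2.toNat) (y := g'.2.toNat) (z := s)
        unfold nn
        rw [h4]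
        omega
      rw [addD, dif_pos h1]
      exact LC.tensor_ext fun _ _ => rfl)
    (FS.mul_tot _ _ _)

variable (ι s) in
/-- **The cube.** -/
@[implicit_reducible] noncomputable def Cb : CommMon (Action MM (Perm ι)) :=
  @subMon _ _ _ _ (Ck ι s (Nat.card ι)) (JM ι) (tot ι s _) (mono_tot _ _) (uC ι s _) (mC ι s)
    uC_tot (liftC_tot _ _ _)

theorem Cb_one : η[(Cb ι s).X] = uC ι s (Nat.card ι) := rfl

theorem posT_Cb : PosT (Cb ι s).X.V 0 := posT_Ck

end mon

section cone

variable (ι s) in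
/-- the source of the fold map -/
noncomputable abbrev QD : Action MM (Perm ι) := RT ι s ⊗ (JA (Perm ι) MM).obj (DA ι)

variable (ι s) in
/-- the fold map -/
noncomputable def fd : QD ι s ⟶ 𝟙_ _ :=
  (tA ι s ⊗ₘ (JA _ MM).map (toPt _ (Ds ι)) ≫ Functor.OplaxMonoidal.η (JA _ MM)) ≫ (λ_ _).hom

variable [Nonempty ι] (hs : 0 < s)
include hs

theorem one_le_nn : 1 ≤ nn ι s 1 (0, (s : ℤ)) := le_nn hs le_rfl Nat.card_pos (one_mul s).le

variable (ι) in
/-- the null homotopy of the fold map in the first stage -/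
noncomputable def nul₁ : QD ι s ⊗ CI _ ⟶ Ck ι s 1 :=
  (α_ _ _ _).hom ≫ RT ι s ◁ ((JA _ MM).map (vtx ι).hom ▷ _ ≫ cpol ι 1 MM) ≫ cel s (one_le_nn hs)

theorem isPushout_nul₁ : IsPushout (coneBase (QD ι s)) (fd ι s) (nul₁ ι hs) (uC ι s 1) := by
  have h1 := StabInput.isPushout_whiskerLeft (RT ι s) (isPushout_pol (ι := ι) (j := 1) MM)
  have h2 : IsPushout (RT ι s ◁ unt ι 1 MM) ((ρ_ _).hom ≫ tA ι s) (cel s (one_le_nn hs))
      (uC ι s 1) := by
    refine (isPushout_ck (ι := ι) (k := 0) hs Nat.card_pos (one_mul s).symm).of_iso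
      (whiskerLeftIso _ (asIso (unt ι 0 MM)).symm) (Iso.refl _) (asIso (uC ι s 0)).symm (Iso.refl _)
      ?_ ?_ (Category.comp_id _ |>.trans (Category.id_comp _).symm) ?_
    · rw [whiskerLeftIso_hom, ← MonoidalCategory.whiskerLeft_comp, Iso.refl_hom, Category.comp_id]
      congr 1
      rw [Iso.symm_hom, asIso_inv, IsIso.eq_inv_comp, unt_gι]
    · rw [Iso.symm_hom, asIso_inv, IsIso.comp_inv_eq, ← cancel_epi (RT ι s ◁ unt ι 0 MM),
        ← cancel_mono (tot ι s 0), whiskerLeftIso_hom, Iso.symm_hom, asIso_inv]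
      simp only [Category.assoc]
      rw [← MonoidalCategory.whiskerLeft_comp_assoc _ _ (inv _), IsIso.hom_inv_id,
        MonoidalCategory.whiskerLeft_id, Category.id_comp, uC_tot, cel_tot, whisker_exchange_assoc,
        leftUnitor_naturality_assoc, unt_gι, ← rightUnitor_naturality_assoc, unitors_equal]
    · rw [Iso.symm_hom, asIso_inv, IsIso.eq_inv_comp, Iso.refl_hom, Category.comp_id, uC_ck]
  refine (h1.paste_vert h2).of_iso (whiskerLeftIso _ ((JA _ MM).mapIso (vtx ι).symm))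
    (whiskerLeftIso _ (whiskerRightIso ((JA _ MM).mapIso (vtx ι).symm) _) ≪≫ (α_ _ _ _).symm)
    (Iso.refl _) (Iso.refl _) ?_ ?_ ?_ ?_
  · rw [Iso.trans_hom, Iso.symm_hom, ← Category.assoc, Iso.comp_inv_eq, Category.assoc,
      coneBase_assoc, whiskerLeftIso_hom, whiskerLeftIso_hom, whiskerRightIso_hom,
      ← MonoidalCategory.whiskerLeft_comp, ← MonoidalCategory.whiskerLeft_comp,
      coneBase_naturality]
  · rw [Iso.refl_hom, Category.comp_id, whiskerLeftIso_hom, fd, whiskerLeft_comp_tensorHom_assoc,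
      Functor.mapIso_hom, ← Functor.map_comp_assoc, ← vtx_toPt, Iso.symm_hom, Iso.inv_hom_id_assoc,
      prj, tensorHom_def', Category.assoc, unitors_equal, rightUnitor_naturality]
  · rw [nul₁, Iso.trans_hom, Iso.symm_hom, Category.assoc, Category.assoc, Iso.inv_hom_id_assoc,
      whiskerLeftIso_hom,
      whiskerRightIso_hom, ← MonoidalCategory.whiskerLeft_comp_assoc, ← comp_whiskerRight_assoc,
      Functor.mapIso_hom, ← Functor.map_comp, Iso.symm_hom, Iso.inv_hom_id,
      CategoryTheory.Functor.map_id, id_whiskerRight, Category.id_comp, Iso.refl_hom,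
      Category.comp_id]
  · simp

variable (ι) in
/-- the null homotopy of the fold map -/
noncomputable def nul : QD ι s ⊗ CI _ ⟶ (Cb ι s).X := nul₁ ι hs ≫ ck ι s Nat.card_pos

theorem coneBase_nul : coneBase (QD ι s) ≫ nul ι hs = fd ι s ≫ η[(Cb ι s).X] := by
  rw [nul, reassoc_of% (isPushout_nul₁ hs).w, Cb_one, uC_ck]

variable (ι) in
/-- the map from the cone of the fold map -/
noncomputable def cb : cone (fd ι s) ⟶ (Cb ι s).X :=
  cdesc (nul ι hs) η[(Cb ι s).X] (coneBase_nul hs)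

variable (ι) in
/-- the first stage is the cone of the fold map -/
noncomputable def coneIso : cone (fd ι s) ≅ Ck ι s 1 :=
  (isPushout_cone (fd ι s)).isoIsPushout _ _ (isPushout_nul₁ hs)

theorem cb_eq : cb ι hs = (coneIso ι hs).hom ≫ ck ι s Nat.card_pos := by
  apply cone_ext
  · rw [cb, ck_cdesc, coneIso, IsPushout.inl_isoIsPushout_hom_assoc, nul]
  · rw [cb, ci_cdesc, coneIso, IsPushout.inr_isoIsPushout_hom_assoc, Cb_one, uC_ck]

end cone

end Vale.Agent.P257.G.R
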