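import Vale.Agent.N257.Low
import Vale.Agent.P257.W.MUD

/-!
# P257, rescaled windows: detection along a chain of cells
-/

open CategoryTheory MonoidalCategory Limits MonObj

universe w

set_option linter.unusedSectionVars false

namespace Vale.Agent.P257.G.R

open Vale.Agent.P251.H Vale.Agent.P251.H.StabInput
open Vale.Agent.P251.M (IsInv)
open K M D D.EF C A T L W

variable {p : ℕ} {T T' : CommMon MM} {r m : ℕ} {X Y : EE p}

section R

variable {R : EE p} [MonObj R] {A₀ : Type w} [CommRing A₀] {G : RegSeq p A₀}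
  {Q : Coef (SC.sph (De p)) R G} {ok : ℕ → MM → Prop} {a : ℕ → Lam} {w : ℕ → ℕ} (hp : p.Prime)
  (h0 : Le0 R.obj) (h1 : Supp R.obj {g : Gam | g.1 = 0}) (h2 : PosT R.obj 0) (h : V.OddCells ok w)
include hp h0 h1 h2 h

theorem mTow_aux {i : ℕ} (tc : TC ok T0 i T) (hd : tc.All (DetS Q a w)) (b : Lam) {r : ℕ}
    (hr : ∑ j ∈ Finset.range i, w j ≤ r) (hr' : ∀ j, r < p * w j) :
    (i = 0 → (wTests p (b, r)).WE₂ R ((sE p).map (ut b r ≫ ah tc.i0))) ∧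
    (i ≠ 0 → MTow Q (scTri _) (wTests p (b, r)) _ i ((sE p).map (ut b r ≫ ah tc.i0))) := by
  induction tc with
  | nil => exact ⟨fun _ => by simpa [TC.i0] using we₂_ut h0 h1 b r, fun k => (k rfl).elim⟩
  | @cons i T T' tc s k ih =>
    refine ⟨fun k => by omega, fun _ => ?_⟩
    rw [Finset.sum_range_succ] at hr
    have H := worldE hp
    have hr'' : ∀ j, (r : ℤ) < p * w j := fun j => by exact_mod_cast hr' j
    obtain ⟨k1, a', l, k2, k3⟩ := h _ _ k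
    have hT := h.posT tc posT_T0
    have hj := we₂_actL (R := R) (f := w i) tc.i0
      (stab_tc H hr'' h tc posT_T0 (stab_of_le0 le0_T0 r) b)
      (stab_tc_left H hr'' h tc h2 posT_T0 (stab_tensor_of_le0 h0 le0_T0 r) b)
      (by rw [zero_add]; exact_mod_cast hr) (a i)
    have hc := scTri_cone (De p) (isCone_cone (actL s.v))
    rw [actL, Functor.map_comp, SC.st_whiskerLeft] at hj hc
    have hX := V.nf_posT k2 le_rfl
    have e : (sE p).map (ut b r ≫ ah (tc.i0 ≫ s.i)) = ((sE p).map (ut b r ≫ ah tc.i0) ≫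
        (sE p).map (ci (actL s.v))) ≫ (sE p).map (c1 s.att.w) := by
      rw [← Functor.map_comp, ← Functor.map_comp, Category.assoc, ci_c1, ah_comp, Category.assoc]
    refine e ▸ MTow.comp ?_ _
      ⟨wTests_we fun m => bij_c1 H s.att k2.hv hT hX (Int.natCast_nonneg _) (H.nf k2) k3 m b
          (hr'' i),
        wTests_we fun m => bij_c1_left H s.att k2.hv h2 hT hX (Int.natCast_nonneg _) (H.nf k2) k3
          m b (hr'' i)⟩
    obtain ⟨i1, i2⟩ := ih hd.1 (by omega)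
    cases i with
    | zero =>
      obtain ⟨e, he⟩ := hd.2
      exact MTow.first (wTests_sm _) hj hc (i1 rfl) e he
    | succ i =>
      obtain ⟨e, x, hx, he⟩ := hd.2
      exact MTow.step (wTests_sm _) hj hc (SC.sphOne _) hp (i2 i.succ_ne_zero) (Iso.refl _) e hx he

section

variable {i : ℕ} (tc : TC ok T0 (i + 1) T) (hd : tc.All (DetS Q a w)) (b : Lam) {r : ℕ}
  (hr : ∑ j ∈ Finset.range (i + 1), w j ≤ r) (hr' : ∀ j, r < p * w j)
include hd hr hr'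

theorem mTow_tc :
    MTow Q (scTri _) (wTests p (b, r)) _ (i + 1) ((sE p).map (ut b r ≫ ah tc.i0)) :=
  (mTow_aux hp h0 h1 h2 h tc hd b hr hr').2 i.succ_ne_zero

theorem cy_tc : Cy Q (i + 1) ((sE p).map (ut b r ≫ ah tc.i0)) :=
  ((mTow_tc hp h0 h1 h2 h tc hd b hr hr').cy (SC.sphOne _) (wTests_sm _) hp).2

end

theorem isVP_of_detS' (hV : Q.IsV 0 ((p : ℤ) • η[R])) (tc : TC ok T0 m T)
    (hd : tc.All (DetS Q a w)) {s : TStep T T'} (hs : DetS Q a w m T T' tc.i0 s)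
    (hr : ∑ j ∈ Finset.range m, w j ≤ w m) (hr' : ∀ j, w m < p * w j) {J : ℤ}
    (c : X ≅ (SC.sph (De p)).obj J ⊗ (sE p).obj (rp (a m, 0))) (x : X ⟶ R ⊗ (sE p).obj T0.X)
    (ε : X ⊗ (sE p).obj (rp (0, (w m : ℤ))) ≅ (sE p).obj s.X)
    (e : X ◁ (sE p).map (t1 (w m)) ≫ (ρ_ X).hom ≫ x ≫ R ◁ (sE p).map (ah tc.i0) =
      ε.hom ≫ (λ_ _).inv ≫ (η[R] ⊗ₘ (sE p).map s.v)) : IsVP Q m (a m) x := by
  have b := fun (r : ℕ) (k : ℤ) => bij_tensor (c := SC.sph (De p)) (SC.sphOne _) (wTests_sm _)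
    (we₂_ut h0 h1 (a m) r).2 k
  obtain ⟨z, hz⟩ := (b 0 J).2 (c.inv ≫ x)
  have hz : x = c.hom ≫ (z ⊗ₘ (sE p).map (un (a m))) := (Iso.inv_comp_eq c).1 hz.symm
  refine ⟨_, c, z, ?_, hz⟩
  rw [hz, Category.assoc, reassoc_of% t_un c z (w m), tensorHom_comp_whiskerLeft,
    ← Functor.map_comp] at e
  cases m with
  | zero =>
    obtain ⟨e', he⟩ := hs
    cases tc
    obtain ⟨δ, hδ⟩ := exists_iso_whiskerRight ((tIso c (w 0)).symm ≪≫ ε ≪≫ e' ≪≫ (λ_ _).symm)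
    have : z = δ.hom ≫ ((p : ℤ) • η[R]) := (b (w 0) J).1 (by
      rw [he, ← Iso.eq_inv_comp] at e
      simp only [TC.i0, ah_id, Category.comp_id] at e
      beta_reduce
      rw [e, ← whiskerRight_comp_tensorHom, ← hδ, zsmul_tensor, tensor_zsmul,
        ← whiskerLeft_comp_tensorHom, ← Preadditive.comp_zsmul, ← leftUnitor_inv_naturality_assoc]
      simp only [Iso.trans_hom, Iso.symm_hom, Category.assoc])
    exact this ▸ hV.iso δ
  | succ m =>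
    obtain ⟨e', y, hy, he⟩ := hs
    obtain ⟨δ, hδ⟩ := exists_iso_whiskerRight ((tIso c (w (m + 1))).symm ≪≫ ε ≪≫ e')
    refine (cy_tc hp h0 h1 h2 h tc hd (a (m + 1)) hr hr').isV hp m.succ_pos δ (hy.iso δ) ?_
    rw [he, ← Iso.eq_inv_comp] at e
    rw [e, ← whiskerRight_comp_tensorHom, ← hδ]
    simp only [Iso.trans_hom, Iso.symm_hom, Category.assoc]

end R

variable {C : CommMon MM} [MonObj ((sE p).obj C.X)] {A₀ : Type w} [CommRing A₀] {G : RegSeq p A₀}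
  {Q : Coef (SC.sph (De p)) ((sE p).obj C.X) G}
  {ok : ℕ → MM → Prop} {a : ℕ → Lam} {w : ℕ → ℕ} (hp : p.Prime) (h0 : Le0 C.X)
  (h1 : Supp C.X {g : Gam | g.1 = 0}) (h2 : PosT C.X 0) (h : V.OddCells ok w)
include hp h0 h1 h2 h

theorem onto_tc {i : ℕ} (tc : TC ok T0 i T) (hd : tc.All (DetS Q a w)) (b : Lam)
    (hr : ∑ j ∈ Finset.range i, w j ≤ r) (hr' : ∀ j, r < p * w j) (J : ℤ) :
    (tc.tensor C).All fun _ T T' _ s => ∀ y : (cE p).obj (J, (b, (r : ℤ))) ⟶ (sE p).obj T'.X,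
      ∃ y' : (cE p).obj (J, (b, (r : ℤ))) ⟶ (sE p).obj T.X, y' ≫ (sE p).map (ah s.i) = y := by
  induction tc with
  | nil => trivial
  | cons tc s k ih =>
    refine ⟨ih hd.1 (by rw [Finset.sum_range_succ] at hr; omega), fun y => ?_⟩
    have H := cy_tc hp h0 h1 h2 h (.cons tc s k) hd b hr hr'
    obtain ⟨n, rfl | rfl⟩ := Int.even_or_odd' J
    · obtain ⟨z, hz⟩ := H.surj n y
      have e : (z ⊗ₘ (sE p).map (ut b r ≫ ah tc.i0)) ≫ (sE p).obj C.X ◁ (sE p).map (ah s.i) =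
          z ⊗ₘ (sE p).map (ut b r ≫ ah (tc.i0 ≫ s.i)) := by
        rw [tensorHom_comp_whiskerLeft, ← Functor.map_comp, Category.assoc, ah_comp]
      rw [← sE_cwl] at e
      exact ⟨_, e.trans hz.symm⟩
    · exact ⟨0, zero_comp.trans (H.odd n y).symm⟩

theorem isVP_of_detS (hη : η[(sE p).obj C.X] = (sE p).map η[C.X])
    (hV : Q.IsV 0 ((p : ℤ) • η[(sE p).obj C.X])) (tc : TC ok T0 m T) (hd : tc.All (DetS Q a w))
    {s : TStep T T'} (hs : DetS Q a w m T T' tc.i0 s) (hr : ∑ j ∈ Finset.range m, w j ≤ w m)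
    (hr' : ∀ j, w m < p * w j) {Z : MM} {J : ℤ} (hZ : NF Z (a m, 0) J) (x : Z ⟶ (cten C T0).X)
    (ε : (sE p).obj (Z ⊗ rp (0, (w m : ℤ))) ≅ (sE p).obj s.X)
    (e : (sE p).map (tX Z (w m) ≫ x ≫ ah (cwl C tc.i0)) =
      ε.hom ≫ (sE p).map (s.v ≫ ah (cinr C T))) : IsVP Q m (a m) ((sE p).map x) := by
  obtain ⟨c⟩ := hZ.iso p
  refine isVP_of_detS' hp h0 h1 h2 h hV tc hd hs hr hr' c _ ε ?_
  rw [← comp_cinr hη, ← Functor.map_comp, ← e, Functor.map_comp, Functor.map_comp, sE_tX, sE_cwl,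
    Category.assoc]

theorem isVP_of_pull (hη : η[(sE p).obj C.X] = (sE p).map η[C.X])
    (hV : Q.IsV 0 ((p : ℤ) • η[(sE p).obj C.X])) (tc : TC ok T0 m T) (hd : tc.All (DetS Q a w))
    {s : TStep T T'} (hs : DetS Q a w m T T' tc.i0 s) (hr : ∑ j ∈ Finset.range m, w j ≤ w m)
    (hr' : ∀ j, w m < p * w j) {A R : CommMon MM} {sp0 : A ⟶ cten C T0} {sp : R ⟶ cten C T}
    {c : RC A sp0 (tc.tensor C) R sp} (b : Bc c) {x : s.X ⟶ R.X}
    (hx : x ≫ ah sp = s.v ≫ ah (cinr C T)) {Z : MM} {J : ℤ} (hZ : NF Z (a m, 0) J)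
    (ξ : Z ⟶ b.A'.X) (ε : (sE p).obj (Z ⊗ rp (0, (w m : ℤ))) ≅ (sE p).obj s.X)
    (e : (sE p).map (tX Z (w m) ≫ ξ ≫ ah b.c'.i0) = ε.hom ≫ (sE p).map x ≫ (sE p).map (ah b.g)) :
    IsVP Q m (a m) ((sE p).map (ξ ≫ ah b.sp0')) := by
  refine isVP_of_detS hp h0 h1 h2 h hη hV tc hd hs hr hr' hZ _ ε ?_
  have k : ah b.sp0' ≫ ah (cwl C tc.i0) = ah b.c'.i0 ≫ ah b.sp' := by
    rw [← ah_comp, ← ah_comp, b.c'.i0_sp, TC.i0_tensor]
  have l : ah sp = ah b.g ≫ ah b.sp' := by rw [← ah_comp, b.hg]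
  rw [Category.assoc, k, ← hx, l, ← Category.assoc ξ, ← Category.assoc, Functor.map_comp, e,
    Functor.map_comp, Functor.map_comp, Category.assoc, Category.assoc]

end Vale.Agent.P257.G.R
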