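import Vale.Agent.N257.State
import Vale.Agent.P257.G.DivS

/-!
# P257, rescaled windows: division of the Frobenius of the last attaching map
-/

open CategoryTheory MonoidalCategory Limits Pointwise

namespace Vale.Agent.P257.G.R

open Vale.Agent.P251.H Vale.Agent.P251.H.StabInput
open Vale.Agent.P257.A Vale.Agent.P257.T Vale.Agent.P257.W Vale.Agent.P257.K Vale.Agent.P257.M
open Vale.Agent.P257.N (NZ SM kT kP kφ NIso NTw GH CX aH)
open Vale.Agent.P257.F (DH sH RH)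
open Equiv (Perm)

theorem scM_ee (p j : ℕ) : scM p (ee j, (ww j : ℤ)) = (p • ee j, (uu j : ℤ)) := by
  rw [scM_apply, ell_ee, uu]
  push_cast
  rfl

/-- the vanishing statement in the next degree -/
theorem van_next {p P Lm j : ℕ} {hp : 0 < p} {X : MM} {N l : ℤ}
    (h : GP (sE p) (tE p) (V.par p P Lm hp) X (sh w0 (DB j + DS p j)) N)
    (hL : ell (p • ee j) ≤ Lm) (hP : uu j ≤ P) (k : l + 3 * 2 ^ j + N < 2 * p ^ (j + 1)) :
    (cE p).Van ((sE p).obj X) (l, (p • ee j, (uu j : ℤ))) := by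
  refine (h.prof _ _ hL (Int.ofNat_le.2 hP) (win p j)).van le_rfl (Int.ofNat_le.2 hP) ?_
  change (p : ℤ) * l < bd p (p • ee j) - p * N
  rw [bd_next, ← mul_sub]
  exact mul_lt_mul_of_pos_left (by omega) (Int.natCast_pos.2 hp)

variable {ι : Type} [Finite ι] [Nontrivial ι] [DecidableEq ι] {p : ℕ} [hp : Fact p.Prime]
  [hι : Fact (Nat.card ι = p)] {n : ℕ} {hl : 4 ≤ Nat.card ι} {j : ℕ} {c : D.O} {m : ℕ}

section

variable (σ : Core ι p n hl j) (hn : 2 ≤ n) (hj : j < n)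
include hn hj

omit [DecidableEq ι] hι in
theorem Core.nIso (a : Lam) : NIso p σ.nz (a, (uu j : ℤ)) :=
  (σ.un.gd σ.upB.gp.posT).iso a _ (Int.ofNat_le.2 (uu_le hn hj))

omit [DecidableEq ι] hι in
theorem Core.nTw : NTw p σ.nz (p • ee j, (uu j : ℤ)) :=
  (σ.un.gd σ.upB.gp.posT).tw' σ.upB.gp (DS_bx p j) (ell_le p hj)
    (Int.ofNat_le.2 (uu_le hn hj)) (win p j)

end

omit [Nontrivial ι] in
theorem gh_next [Nonempty ι] {X : MM} (hc : Nonempty c.El)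
    (e : X ≅ D.EF.rep (⟨c, (ee j, (ww j : ℤ))⟩ : JG) ⊗ tpow (S MM) m) :
    GH p ((-1) ^ Fintype.card c.El) (m - p * Fintype.card c.El,
      (p • ee j, (uu j : ℤ))) ((sH ι p).obj ((FL (Perm ι) ι).obj X)) :=
  scM_ee p j ▸ gh_FrL hc e

variable (C : CX ι p)
include C

theorem gh_div {X : MM} (hc : Nonempty c.El) (hm : (m : ℤ) = Fintype.card c.El + (dd p j - 1))
    (e : X ≅ D.EF.rep (⟨c, (ee j, (ww j : ℤ))⟩ : JG) ⊗ tpow (S MM) m)
    {V : SC (DH ι p)} {f : (sH ι p).obj ((FL (Perm ι) ι).obj X) ⟶ V}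
    (hf : Eu (aH ι (DH ι p)) (m + 2) f) :
    GH p 1 (dd p (j + 1) - 1, (p • ee j, (uu j : ℤ))) V := by
  refine ((gh_next hc e).eu C hf).cast ?_ (Prod.ext ?_ rfl)
  · rw [← pow_add]
    refine Even.neg_one_pow ((Int.even_coe_nat _).1 ⟨Fintype.card c.El + p ^ j, ?_⟩)
    push_cast
    rw [hm, dd]
    ring
  · push_cast
    rw [hm, dd, dd]
    ring

/-- The Frobenius of the last attaching map is divisible by `a ^ (m + 2)`. -/
theorem Core.div (σ : Core ι p n hl j) (h : Num p n) (hj : j < n) (hc : Nonempty c.El)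
    (hm : (m : ℤ) = Fintype.card c.El + (dd p j - 1))
    (e : σ.s.X ≅ D.EF.rep (⟨c, (ee j, (ww j : ℤ))⟩ : JG) ⊗ tpow (S MM) m)
    {V : SC (DH ι p)} {f : (sH ι p).obj ((FL (Perm ι) ι).obj σ.s.X) ⟶ V}
    (hf : Eu (aH ι (DH ι p)) (m + 2) f) :
    Function.Surjective fun g : V ⟶ (sH ι p).obj σ.nz.Z.X => f ≫ g := by
  refine N.eu_surj C (by omega) hf (gh_next hc e) (σ.nIso h.two hj _) (σ.nTw h.two hj) fun k hk hs =>
    van_next σ.upN.gp (ell_le p hj) (uu_le h.two hj) ?_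
  rw [← pow_add] at hs
  obtain ⟨r, hr⟩ := (neg_one_pow_eq_one_iff_even (by decide)).1 hs
  have h1 : (k : ℤ) ≤ m := by
    rw [dd] at hm
    omega
  have h2 : (k : ℤ) * (p - 1) ≤ m * (p - 1) :=
    mul_le_mul_of_nonneg_right h1 (by have := hp.out.pos; omega)
  have h3 : (3 : ℤ) * 2 ^ j + NN j + j + 2 ≤ 2 * p := by exact_mod_cast h.dim hj
  have h4 : (m : ℤ) - p * Fintype.card c.El + m * (p - 1) = 2 * p ^ (j + 1) - 2 * p := by
    rw [hm, dd]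
    ring
  have h5 : (0 : ℤ) < 2 ^ j := by positivity
  omega

universe w

variable {MU : EE p} [MonObj MU] {A₀ : Type w} [CommRing A₀] {G₀ : L.RegSeq p A₀}
  {Co : L.Coef (SC.sph (De p)) MU G₀}

/-- The division together with the detection of the quotient. -/
theorem Core.exists_next (h : Num p n) (hG : Glue ι n hl Co) (hj : j < n)
    (σ : Core ι p n hl j) (hd : σ.Det Co) :
    ∃ (Y : Action MM (Perm ι)) (q : (sH ι p).obj Y ⟶ (sH ι p).obj σ.nz.Z.X) (X : MM)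
      (y : X ⟶ σ.nz.N.X) (t : (kT ι p).obj ((sE p).obj X) ≅ (kP ι p).obj Y)
      (f : (sH ι p).obj ((FL (Perm ι) ι).obj σ.s.X) ⟶ (sH ι p).obj Y),
      PosT Y.V (uu j) ∧ NF X (p • ee j, (uu j : ℤ)) (dd p (j + 1) - 1) ∧
      (kT ι p).map ((sE p).map y) ≫ kφ p σ.nz.φ = t.hom ≫ (Kl.ks _).map q ∧
      f ≫ q = (sH ι p).map σ.Fv ∧
      Dn Co σ.tc1.i0 (p • ee j) (j + 1) ((sE p).map (y ≫ ah σ.fold)) ∧
      HV ((FL (Perm ι) ι).obj σ.s.X).V ∧ PosT ((FL (Perm ι) ι).obj σ.s.X).V 1 := by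
  obtain ⟨c, m, hc, hm, ⟨e⟩⟩ := σ.hs
  have hf := eu_st (Eu.of_tpow (aR ι) ((FL (Perm ι) ι).obj σ.s.X) (m + 2)) (DH ι p)
  obtain ⟨g, hg⟩ := σ.div C h hj hc hm e hf ((sH ι p).map σ.Fv)
  obtain ⟨Y, y, t, h1, h2⟩ := N.exists_sigma C (by omega) (σ.nIso h.two hj _) (gh_div C hc hm e hf) g
  have k := nf_FrL (G := Perm ι) (ι := ι) hc e
  rw [hι.out, scM_ee] at k
  obtain ⟨u⟩ := h1.iso p
  refine ⟨FW ι σ.s.X (m + 2), g, Y, y, t, _, ?_, h1, h2, hg, ?_, k.hv,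
    k.posT (Int.ofNat_le.2 ((ww_pos j).trans (ww_le_uu j)))⟩
  · refine (nf_FW hc e (m + 2)).posT ?_
    rw [scM_ee]
  · rw [Functor.map_comp]
    exact hG j hj σ hd c m hc hm e _ _ hf g hg _ u t _ h2

end Vale.Agent.P257.G.R
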