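import Vale.Agent.P257.T.Frob

/-!
# P257, rescaled windows: the Frobenius twisted by the length of the weight

* `scM p (a, w) = (p • a, w + 3 * ell a)`; `Lq X`: `X` is generated in the degrees `(a, w)` with
  `w ≤ 0` and `w ≤ ell a`;
* `FL`, `FR`, `dgM`, `frobM`, `FC`, `fV`, `FOn`: as for the untwisted Frobenius.
-/

open CategoryTheory MonoidalCategory Limits Functor.LaxMonoidal Functor.OplaxMonoidal

namespace Vale.Agent.P257.G.R

open Vale.Agent.P257.D Vale.Agent.P257.D.EF Vale.Agent.P257.A Vale.Agent.P257.M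
open Vale.Agent.P257.T Vale.Agent.P257.K Vale.Agent.P257.W
open Vale.Agent.P257.E (triv)
open Vale.Agent.P251.G (LC)
open Vale.Agent.P251.H (StabInput tpow)
open Vale.Agent.P251.H.StabInput (S CI coneBase MHtpy)
open Equiv (Perm)

set_option linter.unusedSectionVars false

section lq

/-- the truncation -/
noncomputable def trM : Gam →o Gam where
  toFun g := (g.1, min (min g.2 0) (ell g.1))
  monotone' _ _ h := ⟨h.1, min_le_min (min_le_min_right _ h.2) (congrArg ell h.1).le⟩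

instance : Gr.SupAdd trM where
  zero_le := ⟨le_rfl, by
    change (0 : ℤ) ≤ min (min 0 0) (ell 0)
    simp⟩
  add_le a b := ⟨le_rfl, by
    change min (min a.2 0) (ell a.1) + min (min b.2 0) (ell b.1) ≤
      min (min (a.2 + b.2) 0) (ell (a.1 + b.1))
    rw [map_add]
    omega⟩

theorem trM_le (g : Gam) : trM g ≤ g := ⟨le_rfl, (min_le_left _ _).trans (min_le_left _ _)⟩

/-- the truncation of the index category -/
noncomputable abbrev trQ : JG ⥤ JG := Gr.mapO (𝟭 O) trM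

/-- the counit of the truncation of the index category -/
noncomputable abbrev eQ : trQ ⟶ 𝟭 JG := eO trM_le

theorem idem_eQ : Idem eQ := idem_eO trM_le

theorem co_eQ {x : JG} (hx : x.deg.2 ≤ 0) (hx' : x.deg.2 ≤ ell x.deg.1) : Co eQ x :=
  co_eO trM_le ⟨le_rfl, le_min (le_min le_rfl hx) hx'⟩

/-- objects generated in the degrees `(a, w)` with `w ≤ 0` and `w ≤ ell a` -/
abbrev Lq (X : MM) : Prop := Co (resE eQ) X

theorem degIso_eQ (X : MM) : C.DegIso O {g : Gam | g.2 ≤ 0 ∧ g.2 ≤ ell g.1}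
    (eap (resE eQ) X) := fun x hx => by
  have : IsIso (eap eQ x) := co_eQ hx.1 hx.2
  exact ⟨X.map (inv (eap eQ x)), by
    change X.map (eap eQ x) ≫ _ = 𝟙 (X.obj (trQ.obj x))
    rw [← X.map_comp, IsIso.hom_inv_id, X.map_id], by
    change _ ≫ X.map (eap eQ x) = 𝟙 (X.obj x)
    rw [← X.map_comp, IsIso.inv_hom_id, X.map_id]⟩

namespace Lq

variable {X Y : MM}

theorem of_deg (h : C.Deg X {0}) : Lq X := by
  obtain ⟨s, hs⟩ := (h.coloc _ ((degIso_eQ X).mono (by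
    rintro _ rfl
    exact ⟨le_rfl, by simp⟩))).2 (𝟙 X)
  exact idem_eQ.resE.co s hs

theorem of_iso (h : Lq X) (e : X ≅ Y) : Lq Y := Co.of_iso h e

theorem unit : Lq (𝟙_ MM) := Co.unit idem_eQ.resE

theorem tensor (h : Lq X) (k : Lq Y) : Lq (X ⊗ Y) := Co.tensor idem_eQ.resE h k

theorem rep {x : JG} (hx : x.deg.2 ≤ 0) (hx' : x.deg.2 ≤ ell x.deg.1) : Lq (rep x) :=
  co_rep idem_eQ (co_eQ hx hx')

theorem j (K : LC) : Lq ((StabInput.J MM).obj K) := co_jC idem_eQ K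

theorem tpow (h : Lq X) : ∀ n, Lq (tpow X n)
  | 0 => unit
  | n + 1 => h.tensor (tpow h n)

theorem of_isAttach {B B' : CommMon MM} {x : X ⟶ B.X} {i : B ⟶ B'}
    {χ : X ⊗ CI MM ⟶ B'.X} (H : IsAttach i x χ) (hX : Lq X) (hB : Lq B.X) : Lq B'.X :=
  Co.of_isAtt idem_eQ.resE H hX (hX.tensor (j _)) hB

theorem of_nf {a : Lam} {k : ℤ} (h : NF X (a, 0) k) (ha : 0 ≤ ell a) : Lq X := by
  obtain ⟨c, n, -, -, ⟨e⟩⟩ := h
  exact ((rep (x := ⟨c, (a, 0)⟩) le_rfl ha).tensor ((j _).tpow n)).of_iso e.symm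

end Lq

end lq

section fr

/-- the twisted scaling of degrees -/
noncomputable def scM (p : ℕ) : Gam →+o Gam where
  toFun g := (p • g.1, g.2 + 3 * ell g.1)
  map_zero' := by simp
  map_add' a b := by
    simp only [Prod.fst_add, Prod.snd_add, map_add, smul_add, Prod.mk_add_mk]
    congr 1
    ring
  monotone' a b h := ⟨congrArg (p • ·) h.1,
    add_le_add h.2 (congrArg (fun x => 3 * ell x) h.1).le⟩

theorem scM_apply (p : ℕ) (g : Gam) : scM p g = (p • g.1, g.2 + 3 * ell g.1) := rfl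

theorem trM_scM {p : ℕ} (h : 4 ≤ p) (g : Gam) : p • trM g ≤ scM p g := by
  refine ⟨le_rfl, ?_⟩
  change p • min (min g.2 0) (ell g.1) ≤ g.2 + 3 * ell g.1
  have : (4 : ℤ) ≤ p := by exact_mod_cast h
  rw [nsmul_eq_mul]
  have k := mul_le_mul_of_nonpos_right this
    (show min (min g.2 0) (ell g.1) ≤ 0 from (min_le_left _ _).trans (min_le_right _ _))
  omega

variable (G : Type) [Group G] (ι : Type) [Finite ι] [Nonempty ι] [MulAction G ι]

/-- the Frobenius of the index category -/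
noncomputable abbrev FJ : JG ⥤ JG := Gr.map (pow ι) (scM (Nat.card ι))

/-- the action on the Frobenius of the index category -/
noncomputable abbrev fAct : FAct G (FJ ι) := grAct (powAct O G ι) (scM (Nat.card ι))

/-- the left adjoint -/
noncomputable abbrev FL : MM ⥤ Action MM G := lanG (fAct G ι)

/-- the right adjoint -/
noncomputable abbrev FR : Action MM G ⥤ MM := resG (fAct G ι)

/-- the adjunction -/
noncomputable abbrev fAdj : FL G ι ⊣ FR G ι := adjG (fAct G ι)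

variable {ι} (hl : 4 ≤ Nat.card ι)

/-- the comparison map -/
noncomputable abbrev tauQ : trQ ⋙ pow ι ⟶ FJ ι := tauO O (trM_scM hl)

theorem eqvQ : Eqv (tauQ hl) (fAct G ι) := eqv_tauO _

/-- the diagonal -/
noncomputable abbrev dgM {X : MM} (hX : Lq X) : (FL G ι).obj X ⟶ (powG MM G ι).obj X :=
  dg (eqvQ G hl) hX

theorem isIso_dgM_rep {x : JG} (hx : x.deg = 0) (hX : Lq (rep x)) : IsIso (dgM G hl hX) :=
  have : IsIso (tap (tauQ hl) x) := isIso_tap_tauO _ (by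
    rw [hx, _root_.map_zero]
    exact nsmul_nonneg Gr.SupAdd.zero_le _)
  isIso_dg_rep _ (co_eQ (by simp [hx]) (by simp [hx])) hX

/-- the Frobenius -/
noncomputable abbrev frobM {B : CommMon MM} (hB : Lq B.X) :
    B ⟶ (FR G ι).mapCommMon.obj (trivC G B) := frobA (eqvQ G hl) hB

end fr

section frob

variable {G : Type} [Group G] {ι : Type} [Finite ι] [Nonempty ι] [MulAction G ι]
  {A A' R R' : CommMon MM} {Z Z' : CommMon (Action MM G)} {X : MM}

variable (ι) in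
/-- the target of the Frobenius -/
noncomputable abbrev FC (Z : CommMon (Action MM G)) : CommMon MM :=
  (FR G ι).mapCommMon.obj Z

variable (ι) in
/-- functoriality of `FC` -/
noncomputable abbrev fM (z : Z ⟶ Z') : FC ι Z ⟶ FC ι Z' :=
  (FR G ι).mapCommMon.map z

theorem fM_comp {Z'' : CommMon (Action MM G)} (z : Z ⟶ Z') (z' : Z' ⟶ Z'') :
    fM ι (z ≫ z') = fM ι z ≫ fM ι z' := Functor.map_comp _ _ _

/-- the adjoint map -/
noncomputable abbrev fT' (F : R ⟶ FC ι Z) : (FL G ι).obj R.X ⟶ Z.X :=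
  tr (fAdj G ι) F

/-- the value of `F` on a class -/
noncomputable def fV (F : R ⟶ FC ι Z) (x : X ⟶ R.X) : (FL G ι).obj X ⟶ Z.X :=
  (FL G ι).map x ≫ fT' F

@[reassoc]
theorem map_fV (F : R ⟶ FC ι Z) {X' : MM} (u : X' ⟶ X) (x : X ⟶ R.X) :
    (FL G ι).map u ≫ fV F x = fV F (u ≫ x) := by
  rw [fV, fV, Functor.map_comp, Category.assoc]

theorem fV_ah (F : R ⟶ FC ι Z) (x : X ⟶ R.X) (z : Z ⟶ Z') :
    fV F x ≫ ah z = fV (F ≫ fM ι z) x := by
  rw [fV, fV, fT', fT', tr_comp_right, Category.assoc]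

theorem fV_comp (g : R ⟶ R') (F : R' ⟶ FC ι Z) (x : X ⟶ R.X) :
    fV (g ≫ F) x = fV F (x ≫ ah g) := by
  rw [fV, fV, fT', fT', tr_comp_left, Functor.map_comp, Category.assoc]

theorem fV_nat {g : R ⟶ R'} {F : R ⟶ FC ι Z} {F' : R' ⟶ FC ι Z'} {z : Z ⟶ Z'}
    (h : g ≫ F' = F ≫ fM ι z) (x : X ⟶ R.X) : fV F' (x ≫ ah g) = fV F x ≫ ah z := by
  rw [← fV_comp, h, fV_ah]

theorem mHtpy_fV (F : R ⟶ FC ι Z) {x y : X ⟶ R.X} (h : MHtpy x y) :
    MHtpy (fV F x) (fV F y) := (mHtpy_map (FL G ι) h).comp_right _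

/-- Extension over a cell. -/
theorem exists_f_att (F : R ⟶ FC ι Z) {j : R ⟶ R'} {v : X ⟶ R.X}
    {χ : X ⊗ CI MM ⟶ R'.X} (att : IsAttach j v χ) (z : Z ⟶ Z')
    (κ : (FL G ι).obj X ⊗ CI (Action MM G) ⟶ Z'.X)
    (hκ : coneBase _ ≫ κ = fV F v ≫ ah z) : ∃ F' : R' ⟶ FC ι Z',
      j ≫ F' = F ≫ fM ι z ∧ tenCone (FL G ι) χ ≫ fT' F' = κ :=
  att.exists_adj (fAdj G ι) (F ≫ fM ι z) κ (hκ.trans (fV_ah F v z))

variable (hl : 4 ≤ Nat.card ι)

/-- `F` extends the Frobenius of `A`. -/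
def FOn (hA : Lq A.X) (i : A ⟶ R) (γ : trivC G A ⟶ Z) (F : R ⟶ FC ι Z) : Prop :=
  i ≫ F = frobM G hl hA ≫ fM ι γ

namespace FOn

variable {hl} {hA : Lq A.X} {i : A ⟶ R} {γ : trivC G A ⟶ Z} {F : R ⟶ FC ι Z}

theorem of_comm (h : FOn hl hA i γ F) {j : R ⟶ R'} {z : Z ⟶ Z'} {F' : R' ⟶ FC ι Z'}
    (k : j ≫ F' = F ≫ fM ι z) : FOn hl hA (i ≫ j) (γ ≫ z) F' := by
  rw [FOn, Category.assoc, k, ← Category.assoc, h, Category.assoc, ← Functor.map_comp]

theorem comp_z (h : FOn hl hA i γ F) (z : Z ⟶ Z') :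
    FOn hl hA i (γ ≫ z) (F ≫ fM ι z) := by
  rw [FOn, ← Category.assoc, h, Category.assoc, ← Functor.map_comp]

/-- **Base change.** -/
theorem bc (h : FOn hl hA i γ F) (hA' : Lq A'.X) {f : A ⟶ A'} {g : R ⟶ R'} {i' : A' ⟶ R'}
    (po : IsPushout i f g i') {z : Z ⟶ Z'} {γ' : trivC G A' ⟶ Z'}
    (k : γ ≫ z = trivMap G f ≫ γ') :
    ∃ F' : R' ⟶ FC ι Z', FOn hl hA' i' γ' F' ∧ g ≫ F' = F ≫ fM ι z := by
  have w : i ≫ F ≫ fM ι z = f ≫ frobM G hl hA' ≫ fM ι γ' := by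
    refine (h.comp_z z).trans ?_
    rw [k, fM_comp]
    exact (frobA_nat_assoc _ hA hA' f _).symm
  exact ⟨po.desc _ _ w, po.inr_desc _ _ w, po.inl_desc _ _ w⟩

/-- **Extension over a cell.** -/
theorem att (h : FOn hl hA i γ F) {j : R ⟶ R'} {v : X ⟶ R.X} {χ : X ⊗ CI MM ⟶ R'.X}
    (att : IsAttach j v χ) (z : Z ⟶ Z') (κ : (FL G ι).obj X ⊗ CI (Action MM G) ⟶ Z'.X)
    (hκ : coneBase _ ≫ κ = fV F v ≫ ah z) : ∃ F' : R' ⟶ FC ι Z',
      FOn hl hA (i ≫ j) (γ ≫ z) F' ∧ j ≫ F' = F ≫ fM ι z := by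
  obtain ⟨F', h1, -⟩ := exists_f_att F att z κ hκ
  exact ⟨F', h.of_comm h1, h1⟩

/-- the value on a class of `A` -/
theorem map_tr (h : FOn hl hA i γ F) (hX : Lq X) (ξ : X ⟶ A.X) : fV F (ξ ≫ ah i) =
    dgM G hl hX ≫ ((powG MM G ι).map ξ ≫ mulG G ι A.X) ≫ ahL γ := by
  rw [← fV_comp, h, ← fV_ah]
  exact (congrArg (· ≫ _) (map_tr_frobA _ hA hX ξ)).trans (Category.assoc _ _ _)

end FOn

end frob

variable {ι : Type} [Finite ι] [Nonempty ι] {p : ℕ} {R : CommMon MM}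
  {Z : CommMon (Action MM (Perm ι))} {X : MM}

/-- Stably equal classes have the same Frobenius after a power of the Euler class. -/
theorem f_tk (F : R ⟶ FC ι Z) {x y : X ⟶ R.X} (h : (sE p).map x = (sE p).map y) :
    ∃ k : ℕ, ∀ D : Stab (Action MM (Perm ι)),
      (st D).map ((FL (Perm ι) ι).map ((De p).tk k X)) ≫ (st D).map (fV F x) =
        (st D).map ((FL (Perm ι) ι).map ((De p).tk k X)) ≫ (st D).map (fV F y) := by
  obtain ⟨k, hk⟩ := (SC.st_eq_iff x y).1 h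
  refine ⟨k, fun D => ?_⟩
  rw [← Functor.map_comp, ← Functor.map_comp, map_fV, map_fV]
  exact SC.st_htpy (mHtpy_fV F hk)

end Vale.Agent.P257.G.R
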