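import Vale.Agent.N257.Fr1
import Vale.Agent.P257.T.Fru
import Vale.Agent.P257.M.Fac

/-!
# P257, rescaled windows: the twisted Frobenius of framed cells
-/

open CategoryTheory MonoidalCategory Limits Functor.LaxMonoidal Functor.OplaxMonoidal OnePoint

namespace Vale.Agent.P257.G.R

open Vale.Agent.P257.D Vale.Agent.P257.D.EF Vale.Agent.P257.A Vale.Agent.P257.M
open Vale.Agent.P257.T Vale.Agent.P257.K
open Vale.Agent.P257.W (rpCells repIso NF0 tpowAdd tpowMap card_tensor Eu)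
open Vale.Agent.P257.E (act mkAct mkHom triv act_one act_mul act_comm mapA JA gsp)
open Vale.Agent.P251.G (LC)
open Vale.Agent.P251.G.LC (RR smash)
open Vale.Agent.P251.H (StabInput tpow)
open Vale.Agent.P251.H.StabInput (S CI J)
open Equiv (Perm)

set_option linter.unusedSectionVars false

section fr

variable (G : Type) [Group G] (ι : Type) [Finite ι] [Nonempty ι] [MulAction G ι]

/-- the Frobenius of the unit in the index category -/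
noncomputable def frUnit {g g' : Gam} (h : scM (Nat.card ι) g = g') :
    (fAct G ι).at' ⟨𝟙_ O, g⟩ ≅ (triv G).obj (⟨𝟙_ O, g'⟩ : JG) :=
  Action.mkIso (Gr.isoMk (bigUnit ι O) h) fun s => Gr.hom_ext
    ((bigEquiv_bigUnit (MulAction.toPerm s : ι ≃ ι)).trans (Category.comp_id _).symm)

/-- the Frobenius of the unit in degree `g` -/
noncomputable def frRp {g g' : Gam} (h : scM (Nat.card ι) g = g') :
    (FL G ι).obj (rp g) ≅ (triv G).obj (rp g') :=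
  lanGRep (fAct G ι) ⟨𝟙_ O, g⟩ ≪≫ repGIso (frUnit G ι h) ≪≫ repGTriv _

theorem fn_frRp {g g' : Gam} (h : scM (Nat.card ι) g = g') {x : JG}
    (u : (⟨𝟙_ O, g⟩ : JG) ⟶ x) :
    fn (X := (lan (FJ ι)).obj (rep ⟨𝟙_ O, g⟩)) (Y := rep ⟨𝟙_ O, g'⟩) (frRp G ι h).hom.hom
      (li (FJ ι) (pr u)) =
      pr (Gr.homMk (x := ⟨𝟙_ O, g'⟩) (y := (FJ ι).obj ⟨𝟙_ O, g⟩) (bigUnit ι O).inv h.ge ≫
        (FJ ι).map u) := by
  change fn (repMap (Gr.homMk (x := ⟨𝟙_ O, g'⟩) (y := (FJ ι).obj ⟨𝟙_ O, g⟩)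
    (bigUnit ι O).inv h.ge)) (fn (lanRep (FJ ι) ⟨𝟙_ O, g⟩).hom (li (FJ ι) (pr u))) = _
  rw [fn_lanRep_hom, fn_repMap_pr]

@[reassoc]
theorem map_tm_frRp {g₁ g₂ g₁' g₂' : Gam} (k : g₁ ≤ g₂) (h₁ : scM (Nat.card ι) g₁ = g₁')
    (h₂ : scM (Nat.card ι) g₂ = g₂') (k' : g₁' ≤ g₂') :
    (FL G ι).map (M.tm k) ≫ (frRp G ι h₁).hom =
      (frRp G ι h₂).hom ≫ (triv G).map (M.tm k') :=
  Action.hom_ext _ _ (lan_ext (X := rep (⟨𝟙_ O, g₂⟩ : JG)) fun a x => by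
    obtain ⟨u, rfl⟩ := pr_surjective x
    refine (congrArg (fn (frRp G ι h₁).hom.hom) ((fn_lan_map _ _).trans
      (congrArg (li (FJ ι)) (fn_repMap_pr _ _)))).trans ?_
    refine (fn_frRp G ι h₁ _).trans (Eq.trans ?_ (congrArg (fn (M.tm k'))
      (fn_frRp G ι h₂ u)).symm)
    refine Eq.trans ?_ (fn_repMap_pr _ _).symm
    refine congrArg pr (Gr.hom_ext ?_)
    change (bigUnit ι O).inv ≫ (pow ι).map (𝟙 _ ≫ u.hom) = 𝟙 _ ≫ (bigUnit ι O).inv ≫ (pow ι).map u.hom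
    rw [Category.id_comp, Category.id_comp])

theorem η_FrL (h : scM (Nat.card ι) 0 = 0) :
    η (FL G ι) = (frRp G ι h).hom ≫ η (triv G) :=
  Action.hom_ext _ _ ((FAct.lift_η_hom _).trans
    (lan_ext (X := rep (⟨𝟙_ O, 0⟩ : JG)) fun a x => by
      obtain ⟨u, rfl⟩ := pr_surjective x
      exact (fn_lanEta (FJ ι) u).trans (fn_frRp G ι h u).symm))

theorem scM_t (p w : ℕ) : scM p (0, (w : ℤ)) = (0, (w : ℤ)) := by simp [scM_apply]

/-- the Frobenius of the filtration shift -/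
noncomputable def frT (w : ℕ) :
    (FL G ι).obj (rp (0, (w : ℤ))) ≅ (triv G).obj (rp (0, (w : ℤ))) :=
  frRp G ι (scM_t _ w)

@[reassoc]
theorem map_t1_η (w : ℕ) : (FL G ι).map (t1 w) ≫ η (FL G ι) =
    (frT G ι w).hom ≫ (triv G).map (t1 w) ≫ η (triv G) := by
  rw [η_FrL G ι (_root_.map_zero _)]
  exact map_tm_frRp_assoc G ι _ _ _ _ _

/-- the Frobenius of `X ⊗ rp (0, w)` -/
noncomputable def frTX (X : MM) (w : ℕ) : (FL G ι).obj (X ⊗ rp (0, (w : ℤ))) ≅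
    (FL G ι).obj X ⊗ (triv G).obj (rp (0, (w : ℤ))) :=
  (Functor.Monoidal.μIso (FL G ι) _ _).symm ≪≫ whiskerLeftIso _ (frT G ι w)

@[reassoc]
theorem map_tX (X : MM) (w : ℕ) : (FL G ι).map (tX X w) = (frTX G ι X w).hom ≫
    (FL G ι).obj X ◁ ((triv G).map (t1 w) ≫ η (triv G)) ≫ (ρ_ _).hom := by
  change _ = (δ (FL G ι) _ _ ≫ _ ◁ (frT G ι w).hom) ≫ _
  rw [Category.assoc, ← MonoidalCategory.whiskerLeft_comp_assoc, ← map_t1_η,
    MonoidalCategory.whiskerLeft_comp_assoc, δ_natural_right_assoc, tX, Functor.map_comp,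
    Functor.OplaxMonoidal.right_unitality_hom]

variable {G ι} in
/-- the value on a shifted class of `A` -/
theorem FOn.map_tX {hl : 4 ≤ Nat.card ι} {A R : CommMon MM} {Z : CommMon (Action MM G)} {X : MM}
    {hA : Lq A.X} {i : A ⟶ R} {γ : trivC G A ⟶ Z} {F : R ⟶ FC ι Z} (h : FOn hl hA i γ F)
    (hX : Lq X) (ξ : X ⟶ A.X) (w : ℕ) :
    fV F (tX X w ≫ ξ ≫ ah i) = ((FL G ι).map (tX X w) ≫ dgM G hl hX) ≫
      ((powG MM G ι).map ξ ≫ mulG G ι A.X) ≫ ahL γ := by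
  rw [← map_fV, h.map_tr hX]
  exact (Category.assoc _ _ _).symm

theorem repTensor_t (x : JG) (w : ℕ) :
    (repTensor x ⟨𝟙_ O, (0, (w : ℤ))⟩).hom ≫ repMap (Gr.homMk (x := x)
      (y := x ⊗ (⟨𝟙_ O, (0, (w : ℤ))⟩ : JG)) (ρ_ x.ob).inv
        (le_add_of_nonneg_right (a := x.deg) (b := (0, (w : ℤ))) ⟨le_rfl, Int.natCast_nonneg w⟩)) =
      tX (rep x) w :=
  tensor_ext fun a b u v => by
    obtain ⟨u, rfl⟩ := pr_surjective u
    obtain ⟨v, rfl⟩ := pr_surjective v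
    rw [fn_comp, fn_repTensor_hom, fn_repMap_pr]
    refine Eq.trans ?_ ((fn_comp (rep x ◁ t1 w) (ρ_ (rep x)).hom _).trans
      (congrArg (fn (ρ_ (rep x)).hom) (whiskerLeft_tm _ _ _ _))).symm
    refine Eq.trans ?_ (congrArg (fun y => fn (ρ_ (rep x)).hom (EF.tm (pr u) y))
      (fn_repMap_pr _ v)).symm
    refine Eq.trans ?_ ((rightUnitor_tm _ _).trans (rep_act _ _)).symm
    rw [unpr_pr]
    refine congrArg pr (Gr.hom_ext ?_)
    change (ρ_ x.ob).inv ≫ (u.hom ⊗ₘ v.hom) = u.hom ≫ (ρ_ a.ob).inv ≫ a.ob ◁ (𝟙 _ ≫ v.hom)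
    rw [Category.id_comp, MonoidalCategory.tensorHom_def, rightUnitor_inv_naturality_assoc]

theorem rpAdd_t1 (m w : ℕ) (h : ((0, (m : ℤ)) : Gam) + (0, (w : ℤ)) = (0, ((w + m : ℕ) : ℤ))) :
    (rpAdd h).hom ≫ t1 (w + m) = tX (rp (0, (m : ℤ))) w ≫ t1 m := by
  refine Eq.trans ?_ (congrArg (· ≫ t1 m) (repTensor_t ⟨𝟙_ O, (0, (m : ℤ))⟩ w))
  rw [rpAdd, Iso.trans_hom, rpAdd0_hom, rpEq_hom]
  refine ((Category.assoc _ _ _).trans (Category.assoc _ _ _)).trans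
    (Eq.trans (congrArg (_ ≫ ·) ?_) (Category.assoc _ _ _).symm)
  refine ((congrArg (_ ≫ ·) (repMap_comp _ _).symm).trans (repMap_comp _ _).symm).trans
    (Eq.trans (congrArg repMap (Gr.hom_ext ?_)) (repMap_comp _ _))
  change (𝟙 _ ≫ 𝟙 _) ≫ (λ_ (𝟙_ O)).inv = 𝟙 _ ≫ (ρ_ (𝟙_ O)).inv
  rw [unitors_inv_equal, Category.id_comp]

/-- the filtration shift with the trivial action -/
noncomputable abbrev tG (w : ℕ) : (triv G).obj (rp (0, (w : ℤ))) ⟶ 𝟙_ (Action MM G) :=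
  (triv G).map (t1 w) ≫ η (triv G)

theorem exists_tG_add (m w : ℕ) : ∃ j : (triv G).obj (rp (0, (m : ℤ))) ⊗
    (triv G).obj (rp (0, (w : ℤ))) ≅ (triv G).obj (rp (0, ((w + m : ℕ) : ℤ))),
    j.hom ≫ tG G (w + m) = _ ◁ tG G w ≫ (ρ_ _).hom ≫ tG G m := by
  refine ⟨Functor.Monoidal.μIso (triv G) _ _ ≪≫ (triv G).mapIso (rpAdd (by simp [add_comm])), ?_⟩
  rw [Iso.trans_hom, Functor.mapIso_hom, Category.assoc, ← Functor.map_comp_assoc, rpAdd_t1, tX,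
    Functor.map_comp, Functor.map_comp, Functor.Monoidal.μIso_hom, Category.assoc, Category.assoc,
    ← μ_natural_right_assoc, MonoidalCategory.whiskerLeft_comp, Category.assoc,
    Functor.Monoidal.map_rightUnitor, Category.assoc, Category.assoc, Functor.Monoidal.μ_δ_assoc]

variable {ι} in
/-- the diagonal of a representable is a power of the filtration shift -/
theorem exists_dg_rep (hl : 4 ≤ Nat.card ι) (c : O) {a : Lam} {m : ℕ} (hm : (m : ℤ) = 3 * ell a)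
    (hX : Lq (rep (⟨c, (a, 0)⟩ : JG))) :
    ∃ i : (FL G ι).obj (rep (⟨c, (a, 0)⟩ : JG)) ≅
      (powG MM G ι).obj (rep (⟨c, (a, 0)⟩ : JG)) ⊗ (triv G).obj (rp (0, (m : ℤ))),
      i.hom ≫ _ ◁ tG G m ≫ (ρ_ _).hom = dgM G hl hX := by
  let x : JG := ⟨c, (a, 0)⟩
  have hc : Co eQ x := co_eQ le_rfl (show (0 : ℤ) ≤ ell a by omega)
  let k : (powAct JG G ι).at' x ⊗ (triv G).obj (⟨𝟙_ O, (0, (m : ℤ))⟩ : JG) ≅ (fAct G ι).at' x :=
    Action.mkIso (Gr.isoMk (ρ_ _ ≪≫ pb fun _ : ι => x) (by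
      change (pw ι x).deg + (0, (m : ℤ)) = scM (Nat.card ι) (a, 0)
      rw [pw_deg, scM_apply, hm]
      exact Prod.ext (add_zero _) (congrArg (· + 3 * ell a) (smul_zero (Nat.card ι)))))
    fun s => Gr.hom_ext (by
      change ((pwE x (MulAction.toPerm s : ι ≃ ι)).hom ⊗ₘ 𝟙 (𝟙_ O)) ≫ (ρ_ _).hom ≫
        (pb fun _ : ι => x).hom = ((ρ_ _).hom ≫
        (pb fun _ : ι => x).hom) ≫ pwE x.ob (MulAction.toPerm s : ι ≃ ι)
      rw [tensorHom_id, rightUnitor_naturality_assoc, Category.assoc]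
      exact congrArg (_ ≫ ·) (bigEquiv_pb (MulAction.toPerm s : ι ≃ ι) fun _ => x))
  refine ⟨lanGRep (fAct G ι) x ≪≫ repGIso k.symm ≪≫ (repGTensor _ _).symm ≪≫
    ((powRep G ι _).symm ⊗ᵢ repGTriv _), ?_⟩
  rw [← cancel_mono (powRep G ι x).hom]
  refine Eq.trans ?_ (dg_rep (eqvQ G hl) hc hX).symm
  rw [Iso.trans_hom, Category.assoc, Category.assoc, Category.assoc]
  refine congrArg (_ ≫ ·) (Action.hom_ext _ _ ?_)
  have e1 : ((repBig fun _ : ι => x).inv ⊗ₘ 𝟙 (rp (0, (m : ℤ)))) ≫ tX _ m ≫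
      (repBig fun _ : ι => x).hom = tX _ m := by
    rw [tensorHom_id, ← Category.assoc, M.tX_nat, Category.assoc, Iso.inv_hom_id, Category.comp_id]
  have e2 : repMap k.hom.hom ≫ (repTensor (pw ι x) ⟨𝟙_ O, (0, (m : ℤ))⟩).inv ≫ tX _ m =
      repMap (pwM ι hc.sec ≫ tap (tauQ hl) x) := by
    refine (congrArg (_ ≫ ·) ((Iso.inv_comp_eq _).2 (repTensor_t _ m).symm)).trans
      ((repMap_comp _ _).symm.trans (congrArg repMap (Gr.hom_ext ?_)))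
    change (ρ_ _).inv ≫ (ρ_ _).hom ≫ (pb fun _ : ι => x).hom =
      (bigMap fun _ : ι => hc.sec).hom ≫ (pb fun _ : ι => trQ.obj x).hom
    rw [Iso.inv_hom_id_assoc, bigMap_pb, sec_eO_hom]
    exact ((congrArg (_ ≫ ·) (bigMap_id _)).trans (Category.comp_id _)).symm
  refine Eq.trans ?_ e2
  rw [← e1]
  simp only [Action.comp_hom, Iso.trans_hom, Category.assoc, Action.whiskerLeft_hom,
    Action.rightUnitor_hom_hom]
  refine congrArg₂ (· ≫ ·) rfl (congrArg₂ (· ≫ ·) rfl (congrArg₂ (· ≫ ·) (Action.tensorHom_hom _ _)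
    ((Category.assoc _ _ _).symm.trans (congrArg (fun y => (_ ◁ y ≫ _) ≫ _)
      (Category.comp_id (t1 m))))))

end fr

section rho

variable (ι : Type) [Finite ι] [Nonempty ι] {X : MM} {n : ℕ}

/-- the power of the circle -/
noncomputable def powS :
    (powG MM (Perm ι) ι).obj (S MM) ≅ (FL (Perm ι) ι).obj (S MM) ⊗ RM ι :=
  asIso (powLax (Perm ι) ι (jC JG) RR) ≪≫
    (JA (Perm ι) MM).mapIso ((powFn ι RR).symm ≪≫ (Z.spl ι).symm) ≪≫ (Z.jt MM _ RR).symm ≪≫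
      β_ _ _ ≪≫ whiskerRightIso (lanGJIso (fAct (Perm ι) ι) RR).symm _

variable {ι} (hl : 4 ≤ Nat.card ι)

theorem dgM_powS (hX : Lq (S MM)) :
    dgM (Perm ι) hl hX ≫ (powS ι).hom = pm (aR ι) _ := by
  refine pm_aux_sph (lanGJIso (fAct (Perm ι) ι) RR) (dg_jC (eqvQ (Perm ι) hl) hX)
    (m := (JA (Perm ι) MM).map ((powFn ι RR).inv ≫ (Z.spl ι).inv)) (j := (Z.jt MM _ RR).inv) ?_
  refine (congrArg (fun x => _ ≫ x ≫ _) ((JA (Perm ι) MM).map_comp _ _).symm).trans ?_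
  have k : ldiagG (Perm ι) ι RR ≫ (powFn ι RR).inv ≫ (Z.spl ι).inv =
      (λ_ _).inv ≫ Z.zro ι (Z.pd ι) ▷ (triv (Perm ι)).obj RR := by
    rw [ldiagG_RR]
    simp only [Category.assoc, Iso.hom_inv_id_assoc, Iso.hom_inv_id, Category.comp_id]
  rw [k]
  refine Action.hom_ext _ _ ?_
  have k' : ((λ_ _).inv ≫ Z.zro ι (Z.pd ι) ▷ (triv (Perm ι)).obj RR).hom =
      (λ_ RR).inv ≫ (Z.zro ι (Z.pd ι)).hom ▷ RR := by
    rw [Action.comp_hom, Action.whiskerRight_hom, Action.leftUnitor_inv_hom]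
  rw [Action.comp_hom, Action.comp_hom, Action.comp_hom, Action.whiskerRight_hom,
    Action.leftUnitor_inv_hom]
  change 𝟙 _ ≫ (J MM).map ((λ_ _).inv ≫ Z.zro ι (Z.pd ι) ▷ (triv (Perm ι)).obj RR).hom ≫
    δ (J MM) _ RR =
    (λ_ ((J MM).obj RR)).inv ≫ (ε (J MM) ≫ (J MM).map (Z.zro ι (Z.pd ι)).hom) ▷ (J MM).obj RR
  rw [k', Category.id_comp, Functor.map_comp, Category.assoc, ← δ_natural_left,
    Functor.Monoidal.map_leftUnitor_inv, comp_whiskerRight]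
  simp only [Category.assoc]
  exact congrArg (fun x => _ ≫ _ ≫ x) (Functor.Monoidal.μ_δ_assoc (J MM) _ _ _)

/-- the diagonal is the multiplication by a point -/
def DgP (X : MM) {R : Action MM (Perm ι)} (u : 𝟙_ _ ⟶ R) : Prop :=
  ∃ (hX : Lq X) (e : (powG MM (Perm ι) ι).obj X ≅ (FL (Perm ι) ι).obj X ⊗ R),
    dgM (Perm ι) hl hX ≫ e.hom = pm u _

namespace DgP

variable {hl} {Y : MM} {R R' : Action MM (Perm ι)} {u : 𝟙_ _ ⟶ R} {v : 𝟙_ _ ⟶ R'}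

theorem of_iso (h : DgP hl X u) (i : X ≅ Y) : DgP hl Y u := by
  obtain ⟨hX, e, he⟩ := h
  refine ⟨hX.of_iso i, (powG MM (Perm ι) ι).mapIso i.symm ≪≫ e ≪≫
    whiskerRightIso ((FL (Perm ι) ι).mapIso i) _, ?_⟩
  exact pm_aux_iso he (dg_nat _ (hX.of_iso i) hX i.inv)
    ((FL (Perm ι) ι).mapIso i).inv_hom_id

theorem congr (h : DgP hl X u) (j : R ≅ R') (k : u ≫ j.hom = v) : DgP hl X v := by
  obtain ⟨hX, e, he⟩ := h
  refine ⟨hX, e ≪≫ whiskerLeftIso _ j, ?_⟩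
  exact k ▸ pm_aux_congr he j.hom

theorem of_isIso (hX : Lq X) [IsIso (dgM (Perm ι) hl hX)] : DgP hl X (𝟙 _) :=
  ⟨hX, (asIso (dgM (Perm ι) hl hX)).symm ≪≫ (ρ_ _).symm, pm_aux_isIso _⟩

theorem rep {x : JG} (hx : x.deg = 0) : DgP hl (rep x) (𝟙 _) :=
  have := isIso_dgM_rep (Perm ι) hl hx (Lq.rep (by simp [hx]) (by simp [hx]))
  of_isIso _

theorem unit : DgP hl (𝟙_ MM) (𝟙 _) := rep (x := 𝟙_ JG) rfl

theorem sph : DgP hl (S MM) (aR ι) := ⟨Lq.j _, powS ι, dgM_powS hl _⟩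

theorem tensor (h : DgP hl X u) (k : DgP hl Y v) :
    DgP hl (X ⊗ Y) ((λ_ _).inv ≫ (u ⊗ₘ v)) := by
  obtain ⟨hX, e, he⟩ := h
  obtain ⟨hY, e', he'⟩ := k
  refine ⟨hX.tensor hY, (Functor.Monoidal.μIso (powG MM (Perm ι) ι) X Y).symm ≪≫ (e ⊗ᵢ e') ≪≫
    tensorμIso _ _ _ _ ≪≫ whiskerRightIso (Functor.Monoidal.μIso (FL (Perm ι) ι) X Y) _, ?_⟩
  exact pm_aux_tensor he he' (Functor.Monoidal.μIso (FL (Perm ι) ι) X Y)
    (Functor.Monoidal.μIso (powG MM (Perm ι) ι) X Y) (μ_dg _ hX hY _)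

theorem tpow (h : DgP hl X u) : ∀ n : ℕ, DgP hl (tpow X n) (ptPow u n)
  | 0 => unit
  | n + 1 => h.tensor (tpow h n)

end DgP

theorem dgP_nf {x : JG} (hx : x.deg = 0) (i : X ≅ rep x ⊗ tpow (S MM) n) :
    DgP hl X (ptPow (aR ι) n) :=
  (((DgP.rep hx).tensor (DgP.sph.tpow n)).congr (λ_ _) (by simp)).of_iso i.symm

theorem eu_of_dgP {hl : 4 ≤ Nat.card ι} (h : DgP hl X (ptPow (aR ι) n)) (hX : Lq X) :
    Eu (aR ι) n (dgM (Perm ι) hl hX) := by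
  obtain ⟨_, e, he⟩ := h
  rw [(Iso.eq_comp_inv e).2 he, ptPow_eq]
  exact (Eu.of_tpow (aR ι) _ n).comp_iso _

theorem sw_aux {N : Type*} [Category N] [MonoidalCategory N] [SymmetricCategory N]
    {P Q T Z : N} (t : T ⟶ 𝟙_ N) (μ : P ⊗ Q ⟶ Z) :
    (W.sw P Q T).inv ≫ μ ▷ T ≫ Z ◁ t ≫ (ρ_ Z).hom = (P ◁ t ≫ (ρ_ P).hom) ▷ Q ≫ μ := by
  have h : (β_ Q T).hom ≫ t ▷ Q = Q ◁ t ≫ (ρ_ Q).hom ≫ (λ_ Q).inv := by
    rw [← BraidedCategory.braiding_naturality_right, braiding_tensorUnit_right]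
  rw [← whisker_exchange_assoc, rightUnitor_naturality, Iso.inv_comp_eq, W.sw, Iso.trans_hom,
    Iso.trans_hom, whiskerLeftIso_hom, Iso.symm_hom, comp_whiskerRight, Category.assoc,
    Category.assoc, Category.assoc, ← associator_inv_naturality_middle_assoc,
    ← MonoidalCategory.whiskerLeft_comp_assoc, h]
  simp

theorem shift_aux {N : Type*} [Category N] [MonoidalCategory N] {A P T T' T'' : N}
    (d : A ⟶ P ⊗ T) {t : T ⟶ 𝟙_ N} {t' : T' ⟶ 𝟙_ N} {t'' : T'' ⟶ 𝟙_ N} {j : T ⊗ T' ⟶ T''}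
    (h : j ≫ t'' = T ◁ t' ≫ (ρ_ T).hom ≫ t) :
    d ▷ T' ≫ (α_ _ _ _).hom ≫ P ◁ j ≫ P ◁ t'' ≫ (ρ_ P).hom =
      A ◁ t' ≫ (ρ_ A).hom ≫ d ≫ P ◁ t ≫ (ρ_ P).hom := by
  rw [← MonoidalCategory.whiskerLeft_comp_assoc, h, ← rightUnitor_naturality_assoc,
    whisker_exchange_assoc]
  simp

/-- **The diagonal of a framed cell** is a power of the Euler class times a power of the
filtration shift. -/
theorem exists_dg {c : O} {a : Lam} {m : ℕ} (hm : (m : ℤ) = 3 * ell a)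
    (i : X ≅ rep (⟨c, (a, 0)⟩ : JG) ⊗ tpow (S MM) n) (hX : Lq X) :
    ∃ d : (FL (Perm ι) ι).obj X ⟶ (powG MM (Perm ι) ι).obj X ⊗ (triv _).obj (rp (0, (m : ℤ))),
      Eu (aR ι) n d ∧ d ≫ _ ◁ tG _ m ≫ (ρ_ _).hom = dgM (Perm ι) hl hX := by
  have h1 : Lq (rep (⟨c, (a, 0)⟩ : JG)) := Lq.rep le_rfl (show (0 : ℤ) ≤ ell a by omega)
  have h2 : Lq (tpow (S MM) n) := (Lq.j _).tpow n
  obtain ⟨j, hj⟩ := exists_dg_rep (Perm ι) hl c hm h1
  refine ⟨(FL (Perm ι) ι).map i.hom ≫ δ (FL (Perm ι) ι) _ _ ≫ (j.hom ⊗ₘ dgM (Perm ι) hl h2) ≫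
    (W.sw _ _ _).inv ≫ (μ (powG MM (Perm ι) ι) _ _ ≫ (powG MM (Perm ι) ι).map i.inv) ▷ _,
    Eu.iso_comp _ (Eu.iso_comp _ ((((Eu.iso j.hom).tensorHom
      (eu_of_dgP (DgP.sph.tpow n) h2)).cast (zero_add n)).comp_iso _)), ?_⟩
  simp only [Category.assoc]
  rw [sw_aux, ← tensorHom_id, tensorHom_comp_tensorHom_assoc, hj, Category.comp_id,
    ← μ_dg_assoc _ h1 h2 (h1.tensor h2), Functor.Monoidal.δ_μ_assoc]
  refine ((Category.assoc _ _ _).symm.trans (congrArg (· ≫ _) (dg_nat _ hX _ i.hom))).trans ?_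
  rw [Category.assoc, ← Functor.map_comp, i.hom_inv_id, CategoryTheory.Functor.map_id,
    Category.comp_id]

theorem exists_dg_tX {c : O} {a : Lam} {m : ℕ} (hm : (m : ℤ) = 3 * ell a)
    (i : X ≅ rep (⟨c, (a, 0)⟩ : JG) ⊗ tpow (S MM) n) (hX : Lq X) (w : ℕ) :
    ∃ d : (FL (Perm ι) ι).obj (X ⊗ rp (0, (w : ℤ))) ⟶
      (powG MM (Perm ι) ι).obj X ⊗ (triv _).obj (rp (0, ((w + m : ℕ) : ℤ))),
      Eu (aR ι) n d ∧ d ≫ _ ◁ tG _ (w + m) ≫ (ρ_ _).hom =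
        (FL (Perm ι) ι).map (tX X w) ≫ dgM (Perm ι) hl hX := by
  obtain ⟨d, h1, h2⟩ := exists_dg hl hm i hX
  obtain ⟨j, hj⟩ := exists_tG_add (Perm ι) m w
  refine ⟨(frTX (Perm ι) ι X w).hom ≫ d ▷ _ ≫ (α_ _ _ _).hom ≫ _ ◁ j.hom,
    Eu.iso_comp _ ((h1.whiskerRight _).comp_iso _), ?_⟩
  rw [map_tX, ← h2]
  simp only [Category.assoc]
  exact congrArg (_ ≫ ·) (shift_aux d hj)

end rho

end Vale.Agent.P257.G.R
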