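import Vale.Agent.N257.Fr2
import Vale.Agent.P257.W.Rerep

/-!
# P257, rescaled windows: the twisted Frobenius of the transition maps and of framed cells
-/

set_option linter.unusedSectionVars false

open CategoryTheory MonoidalCategory Limits Functor.LaxMonoidal Functor.OplaxMonoidal

namespace Vale.Agent.P257.G.R

open Vale.Agent.P251.H Vale.Agent.P251.H.StabInput
open K M D D.EF C A T W N
open Vale.Agent.P257.E (triv JA mapA repA n0 isIso_map_iff)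
open Vale.Agent.P257.F (DH sH RH sg_map_tensor sg_map_iso sg_map_triv sg_map_tpow sg_repA tpowIsoOf
  nf0_tpowV)
open Vale.Agent.P257.Z (Sg pd)
open Vale.Agent.P251.G (LC)
open Vale.Agent.P251.G.LC (RR)
open Equiv (Perm)

section eu

variable {ι : Type} [Finite ι] [Nonempty ι] (hl : 4 ≤ Nat.card ι)

variable {D : Stab (Action MM (Perm ι))}

include hl in
theorem fru_lamC (h : F.LamInv D) :
    Eu (N.aH ι D) 1 ((st D).map ((FL (Perm ι) ι).map (lamC JG))) := by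
  have h1 : Lq (𝟙_ MM) := Lq.unit
  have h2 : Lq (rep (SphIdx.gen : JG) ⊗ (jC JG).obj RR) :=
    (Lq.rep le_rfl (_root_.map_zero ell).ge).tensor (Lq.j _)
  have := isIso_dgM_rep (Perm ι) hl (x := 𝟙_ JG) rfl h1
  have := isIso_powG_lamC (Gr.inc O (0 : Gam)) ι (Perm ι) (st D) h
  have e : (FL (Perm ι) ι).map (lamC JG) =
      (dgM (Perm ι) hl h2 ≫ (powG MM (Perm ι) ι).map (lamC JG)) ≫ inv (dgM (Perm ι) hl h1) :=
    (IsIso.eq_comp_inv _).2 (dg_nat _ h2 h1 _)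
  rw [e, Functor.map_comp, Functor.map_comp]
  exact ((eu_st (eu_of_dgP (dgP_nf hl (x := SphIdx.gen) (n := 1) rfl
    (whiskerLeftIso _ (ρ_ _).symm)) h2) D).comp_iso _).comp_iso _

theorem isIso_FrL_mfold {m : ℕ} (hm : IsIso (m • 𝟙 (𝟙_ (SC D)))) (X : MM) :
    IsIso ((st D).map ((FL (Perm ι) ι).map (X ◁ (jC JG).map (LC.mfold m)))) := by
  have h : IsIso ((st D).map ((FL (Perm ι) ι).obj X ◁
      (StabInput.J (Action MM (Perm ι))).map (LC.mfold m))) := by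
    rw [E.st_whiskerLeft_mfold]
    exact E.isIso_nsmul_of_unit hm _
  have e : (FL (Perm ι) ι).map (X ◁ (jC JG).map (LC.mfold m)) ≫ δ (FL (Perm ι) ι) _ _ ≫
      _ ◁ (lanGJIso (fAct (Perm ι) ι) RR).hom = (δ (FL (Perm ι) ι) _ _ ≫
      _ ◁ (lanGJIso (fAct (Perm ι) ι) RR).hom) ≫ (FL (Perm ι) ι).obj X ◁
        (StabInput.J (Action MM (Perm ι))).map (LC.mfold m) := by
    rw [← δ_natural_right_assoc, Category.assoc, ← MonoidalCategory.whiskerLeft_comp,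
      ← MonoidalCategory.whiskerLeft_comp]
    exact congrArg (fun x => _ ≫ _ ◁ x) ((lanGJ (fAct (Perm ι) ι)).hom.naturality _)
  have k := (isIso_map_iff (st D) ((Category.id_comp _).trans e)).2 h
  rwa [Functor.map_comp, isIso_comp_right_iff] at k

include hl in
theorem fru_DE (h : F.LamInv D) {m : ℕ} (hm : IsIso (m • 𝟙 (𝟙_ (SC D)))) (X : MM) :
    Eu (N.aH ι D) 1 ((st D).map ((FL (Perm ι) ι).map ((E.DE MM m).t X))) := by
  have h1 : Eu (N.aH ι D) 1 ((FL (Perm ι) ι ⋙ st D).map (E.DE MM m).lam) := by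
    have := isIso_FrL_mfold hm (L : MM)
    have k := Eu.iso_comp ((st D).map ((FL (Perm ι) ι).map
      ((L : MM) ◁ (jC JG).map (LC.mfold m)))) (fru_lamC hl h)
    rwa [← Functor.map_comp, ← Functor.map_comp] at k
  change Eu _ 1 ((FL (Perm ι) ι ⋙ st D).map ((E.DE MM m).lam ▷ X ≫ (λ_ X).hom))
  rw [Functor.map_comp, Functor.Monoidal.map_whiskerRight]
  exact (Eu.iso_comp _ ((h1.whiskerRight _).comp_iso _)).comp_iso _

include hl in
/-- **FRU** -/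
theorem fru (p : ℕ) (X : MM) : Eu (N.aH ι (F.DH ι p)) 1
    ((F.sH ι p).map ((FL (Perm ι) ι).map ((De p).t X))) :=
  fru_DE hl (F.lamInv_DH ι p) (isIso_n0_DH ι p) X

include hl in
theorem fru_tk (p : ℕ) (X : MM) : ∀ k : ℕ, Eu (N.aH ι (F.DH ι p)) k
    ((F.sH ι p).map ((FL (Perm ι) ι).map ((De p).tk k X)))
  | 0 => by
    rw [Stab.tk_zero, CategoryTheory.Functor.map_id, CategoryTheory.Functor.map_id]
    exact .iso _
  | k + 1 => by
    rw [Stab.tk_succ, Functor.map_comp, Functor.map_comp]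
    exact ((fru hl p _).comp (fru_tk p X k)).cast (Nat.add_comm 1 k)

end eu

section iso

variable (G : Type) [Group G] (ι : Type) [Finite ι] [Nonempty ι] [MulAction G ι]

/-- splitting off the degree -/
noncomputable def atIso (c : O) (g : Gam) : (fAct G ι).at' ⟨c, g⟩ ≅
    (mapA (Gr.inc O (0 : Gam)) G).obj ((powAct O G ι).at' c) ⊗
      (triv G).obj (⟨𝟙_ O, scM (Nat.card ι) g⟩ : JG) :=
  Action.mkIso (Gr.isoMk (ρ_ (pw ι c)).symm (zero_add _).symm) fun s => Gr.hom_ext (by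
    change pwE c (MulAction.toPerm s : ι ≃ ι) ≫ (ρ_ (pw ι c)).inv =
      (ρ_ (pw ι c)).inv ≫ (pwE c (MulAction.toPerm s : ι ≃ ι) ⊗ₘ 𝟙 (𝟙_ O))
    rw [tensorHom_id, rightUnitor_inv_naturality])

/-- `Fr_!` of a representable -/
noncomputable def frRepA (c : O) (g : Gam) : (FL G ι).obj (rep ⟨c, g⟩) ≅
    repA (Gr.inc O (0 : Gam)) ((powAct O G ι).at' c) ⊗
      (triv G).obj (rp (scM (Nat.card ι) g)) :=
  lanGRep _ _ ≪≫ repGIso (atIso G ι c g) ≪≫ (repGTensor _ _).symm ≪≫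
    whiskerLeftIso _ (repGTriv _)

/-- `Fr_!` of the circle -/
noncomputable def frS : (FL G ι).obj (S MM) ≅ (triv G).obj (S MM) := lanGJIso _ RR

/-- `Fr_!` of a framed cell -/
noncomputable def frCell {X : MM} {c : O} {g : Gam} {n : ℕ}
    (e : X ≅ rep ⟨c, g⟩ ⊗ tpow (S MM) n) : (FL G ι).obj X ≅
    (FL G ι).obj (rep ⟨c, g⟩) ⊗ tpow ((FL G ι).obj (S MM)) n :=
  (FL G ι).mapIso e ≪≫ (Functor.Monoidal.μIso _ _ _).symm ≪≫
    whiskerLeftIso _ (tpowMap _ _ n)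

end iso

section cell

variable (ι : Type) [Finite ι] [Nonempty ι]

/-- the equivariant cells -/
noncomputable abbrev FW (X : MM) (i : ℕ) : Action MM (Perm ι) :=
  (FL (Perm ι) ι).obj X ⊗ tpow (F.RM ι) i

variable {ι} {X : MM} {c : O} {g : Gam} {n p : ℕ}

theorem sg_FrL [DecidableEq ι] (e : X ≅ rep ⟨c, g⟩ ⊗ tpow (S MM) n) :
    Sg ((-1) ^ Fintype.card c.El) ((mapA (sE p) _).obj ((FL (Perm ι) ι).obj X)) := by
  have h := sg_map_tensor (sg_map_iso (sg_map_tensor (sg_repA (ι := ι) (p := p) c)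
    (sg_map_triv _ _)) (frRepA _ ι c g).symm)
    (sg_map_tpow (sg_map_iso (sg_map_triv (sE p) _) (frS (Perm ι) ι).symm) n)
  rw [one_pow, mul_one, mul_one] at h
  exact sg_map_iso h (frCell _ ι e).symm

theorem nf_FrL {G : Type} [Group G] [MulAction G ι] (hc : Nonempty c.El)
    (e : X ≅ rep ⟨c, g⟩ ⊗ tpow (S MM) n) : NF ((FL G ι).obj X).V (scM (Nat.card ι) g)
      (n - Nat.card ι * Fintype.card c.El) :=
  ⟨pw ι c, n, Fintype.card_pos_iff.1 (by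
      rw [F.card_pw]
      exact Nat.mul_pos Nat.card_pos (Fintype.card_pos_iff.2 hc)), by
      rw [F.card_pw]
      push_cast
      ring,
    ⟨(Action.forget _ G).mapIso (frCell G ι e ≪≫ whiskerRightIso (lanGRep _ _) _) ≪≫
      whiskerLeftIso _
        (E.tpowIso _ n ≪≫ tpowIsoOf ((Action.forget _ G).mapIso (frS G ι)) n)⟩⟩

/-- **the underlying cell** -/
theorem nf_FW (hc : Nonempty c.El) (e : X ≅ rep ⟨c, g⟩ ⊗ tpow (S MM) n) (i : ℕ) :
    NF (FW ι X i).V (scM (Nat.card ι) g)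
      (n - Nat.card ι * Fintype.card c.El + i * pd ι) := by
  have h := (nf_FrL (G := Perm ι) (ι := ι) hc e).tensor (nf0_tpowV (F.nf0_RM (ι := ι)) i)
  rwa [smul_zero, add_zero] at h

theorem gh_FrL [DecidableEq ι] [Fact p.Prime] [hι : Fact (Nat.card ι = p)] (hc : Nonempty c.El)
    (i : X ≅ EF.rep (⟨c, g⟩ : JG) ⊗ tpow (S MM) n) :
    GH p ((-1) ^ Fintype.card c.El) (n - p * Fintype.card c.El, scM p g)
      ((sH ι p).obj ((FL (Perm ι) ι).obj X)) := by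
  have h := (nf_FrL (G := Perm ι) (ι := ι) hc i).nf0
  rw [hι.out] at h
  exact gh_st (sg_FrL i) h

end cell

section rerep

variable {p : ℕ} {ι : Type} [Finite ι] [DecidableEq ι] [Nontrivial ι] [Fact p.Prime] [Fact (Nat.card ι = p)]
  {A R : CommMon MM} {Z : CommMon (Action MM (Perm ι))}

theorem exists_rerep {hl : 4 ≤ Nat.card ι} {hA : Lq A.X} {i : A ⟶ R} {γ : trivC _ A ⟶ Z}
    {F : R ⟶ FC ι Z} (hF : FOn hl hA i γ F) {Y : MM} {c : O} {a : Lam} {w n m : ℕ} {k : ℤ}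
    (hm : (m : ℤ) = 3 * ell a) (hc : Nonempty c.El) (hn : (n : ℤ) = Fintype.card c.El + k)
    (e : Y ≅ rep (⟨c, (a, (w : ℤ))⟩ : JG) ⊗ tpow (S MM) n) (v : Y ⟶ R.X) {X : MM} (ξ : X ⟶ A.X)
    (ε : (sE p).obj (X ⊗ rp (0, (w : ℤ))) ≅ (sE p).obj Y)
    (h : (sE p).map (tX X w ≫ ξ ≫ ah i) = ε.hom ≫ (sE p).map v) :
    ∃ (X' : MM) (ξ' : X' ⟶ A.X) (δ : (sE p).obj X' ≅ (sE p).obj X) (u : X' ⊗ rp (0, (w : ℤ)) ⟶ Y)
      (V : SC (DH ι p)) (j : ℕ) (e' : ℤˣ)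
      (d : V ⟶ (sH ι p).obj ((powG MM (Perm ι) ι).obj X') ⊗
        (sH ι p).obj ((triv _).obj (rp (0, ((w + m : ℕ) : ℤ)))))
      (f : V ⟶ (sH ι p).obj ((FL (Perm ι) ι).obj Y)),
      NF X' (a, 0) k ∧ (sE p).map ξ' = δ.hom ≫ (sE p).map ξ ∧ IsIso ((sE p).map u) ∧
      (sE p).map (tX X' w ≫ ξ' ≫ ah i) = (sE p).map (u ≫ v) ∧
      Eu (aH ι (DH ι p)) (j + n) d ∧ Eu (aH ι (DH ι p)) j f ∧
      GH p e' (p * k - (j + n : ℕ) * ((p : ℤ) - 1), (p • a, ((w + m : ℕ) : ℤ))) V ∧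
      f ≫ (sH ι p).map (fV F v) =
        d ≫ P257.Z.mt ((sH ι p).map (nrmG ι ξ')) (tR ι p (w + m)) ≫ (sH ι p).map (ahL γ) := by
  obtain ⟨X₀, e₀, h₀⟩ : ∃ (X₀ : MM) (_ : X₀ ⊗ rp (0, (w : ℤ)) ≅ Y),
      Frm X₀ (Fintype.card c.El) (a, 0) n :=
    ⟨_, shiftIso c a w _ ≪≫ e.symm, c, hc, rfl, ⟨Iso.refl _⟩⟩
  obtain ⟨δ₀, hδ₀⟩ := exists_iso_whiskerRight (P := (sE p).obj X₀) (P' := (sE p).obj X)
    (O := (sE p).obj (rp (0, (w : ℤ)))) ((sE p).mapIso e₀ ≪≫ ε.symm)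
  obtain ⟨K, ξ', hξ'⟩ := SC.exists_frac (δ₀.hom ≫ (sE p).map ξ)
  obtain ⟨e₁, he₁⟩ := exists_pw_tensor (De p) K X₀ (rp (0, (w : ℤ)))
  have h₁ := h₀.pw (p := p) K
  have hX' : NF ((De p).pw K X₀) (a, 0) k := h₁.nf (by push_cast; omega)
  have hu : (sE p).map (tX _ w ≫ ξ' ≫ ah i) =
      (sE p).map (((De p).tk K X₀ ▷ rp (0, (w : ℤ)) ≫ e₀.hom) ≫ v) := by
    have k1 : δ₀.hom ▷ (sE p).obj (rp (0, (w : ℤ))) ≫ (sE p).map (tX X w) =
        (sE p).map (tX X₀ w) ≫ δ₀.hom := by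
      rw [sE_tX, sE_tX, ← whisker_exchange_assoc, Category.assoc]
      exact congrArg (_ ≫ ·) (rightUnitor_naturality _)
    have k2 : (sE p).map e₀.hom ≫ (sE p).map v =
        (sE p).map (tX X₀ w) ≫ δ₀.hom ≫ (sE p).map ξ ≫ (sE p).map (ah i) := by
      rw [← reassoc_of% k1, ← hδ₀, ← (sE p).map_comp ξ, ← (sE p).map_comp (tX X w), h]
      simp
    rw [Functor.map_comp, Functor.map_comp, Functor.map_comp, Functor.map_comp, Category.assoc, k2,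
      ← (sE p).map_comp_assoc (_ ▷ _), W.tX_nat, ← hξ', Functor.map_comp]
    simp only [Category.assoc]
  obtain ⟨K', hK'⟩ := f_tk F hu
  have hL : Lq ((De p).pw K X₀) := Lq.of_nf hX' (by omega)
  obtain ⟨c₁, -, -, ⟨i₁⟩⟩ := id h₁
  obtain ⟨d, hd, hd'⟩ := exists_dg_tX hl hm i₁ hL w
  refine ⟨_, ξ', asIso ((sE p).map ((De p).tk K X₀)) ≪≫ δ₀, (De p).tk K X₀ ▷ _ ≫ e₀.hom,
    (sH ι p).obj ((FL (Perm ι) ι).obj ((De p).pw K' ((De p).pw K X₀ ⊗ rp (0, (w : ℤ))))),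
    K' + K, (-1) ^ (Fintype.card c.El + K + K'),
    (sH ι p).map ((FL (Perm ι) ι).map ((De p).tk K' _)) ≫ (sH ι p).map d,
    (sH ι p).map ((FL (Perm ι) ι).map ((De p).tk K' _)) ≫
      (sH ι p).map ((FL (Perm ι) ι).map ((De p).tk K X₀ ▷ _ ≫ e₀.hom)),
    hX', hξ'.symm.trans (Category.assoc _ _ _).symm, ?_, hu, ?_, ?_, ?_, ?_⟩
  · rw [← he₁, Functor.map_comp, Functor.map_comp]
    infer_instance
  · exact ((fru_tk hl p _ K').comp (eu_st hd _)).cast (by omega)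
  · refine (fru_tk hl p _ K').comp ?_
    rw [← he₁, Functor.map_comp, Functor.map_comp, Functor.map_comp, Functor.map_comp]
    exact (Eu.iso_comp _ (fru_tk hl p _ K)).comp_iso _
  · obtain ⟨c', h0, h1, ⟨i'⟩⟩ := (h₁.shift w).pw (p := p) K'
    refine (gh_FrL h0 i').cast (by rw [h1]) (Prod.ext ?_ (by simp [scM_apply, hm]))
    rw [h1]
    push_cast
    linear_combination (p : ℤ) * hn
  · rw [Category.assoc, ← Functor.map_comp, map_fV, ← hK', hF.map_tX hL, ← hd',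
      P257.Z.mt_eq]
    simp only [Functor.map_comp, Category.assoc, SC.st_whiskerLeft, tR, nrmG]
    rfl

end rerep

end Vale.Agent.P257.G.R
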