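import Vale.Agent.N257.CB
import Vale.Agent.P257.G.Gd

/-!
# P257, rescaled windows: good levels; the steps `sigma`, `kappa` and the base level
-/

open CategoryTheory MonoidalCategory Limits Functor.LaxMonoidal Functor.OplaxMonoidal Pointwise

namespace Vale.Agent.P257.G.R

open Vale.Agent.P251.H Vale.Agent.P251.H.StabInput
open Vale.Agent.P251.M (IsInv)
open Vale.Agent.P257.A Vale.Agent.P257.T Vale.Agent.P257.K Vale.Agent.P257.L
open Vale.Agent.P257.M Vale.Agent.P257.C Vale.Agent.P257.W Vale.Agent.P257.N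
open Vale.Agent.P257.E (triv JA tt tt_nat tt_assoc tau_st tauRsA rot_aP)
open Vale.Agent.P257.F (DH sH RH RM)
open Vale.Agent.P257.Z (Sg AA DA VA RT tA fld)
open Equiv (Perm)

set_option linter.unusedSectionVars false

variable {ι : Type} [Finite ι] {p s : ℕ} {B B' : CommMon MM} {P r : ℤ} {D : Set (Lam × ℤ)}
  {a b : NZ (SM ι) B} [hp : Fact p.Prime] [hι : Fact (Nat.card ι = p)] [Nontrivial ι] (C : CX ι p)
  {A : MM} {X Y Q : Action MM (Perm ι)}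
include C

section steps

variable {e : (uL (SM ι)).obj A ⟶ Y}

theorem gd_sigma (h : Gd p P D B a) (s : NZ.Step e a b) {c : Lam} {w k : ℤ} (hP : P < p * w)
    (hA : NF A (c, w) k) (hk : Even k) (hw : 0 ≤ w) [IsIso (kφ p e)]
    (hv : HV Y.V) (hY : PosT Y.V w) : Gd p P (D + one c w) B b := by
  obtain ⟨i⟩ := hA.iso p
  have : IsInv ((sE p).obj A) := have := F.isInv_cell (cE p) (k, (c, w)); IsInv.of_iso i.symm
  have hZ := fun d (T : ℤ) hT => bij_c1_hom (T := T) s.attZ hv h.posZ hY hw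
    ⟨((vx C (Classical.arbitrary ι)).lift.mapIso (asIso (kφ p e))).symm ≪≫ i⟩ hk d hT
  refine ⟨V.posT_attach s.attN h.posN (hA.posT (by omega)),
    V.posT_attach s.attZ.und h.posZ (V.posT_mono hY hw), fun d T hT l => ?_,
    fun d T h3 hs l => ?_⟩
  · have t : ∀ l, FB (kT ι p) ((cE p).obj (l, (d, T))) (δ _ _ _ ≫ (kφ p a.φ ⊗ₘ kφ p e)) := fun l =>
      fb_tensor _ _ _ (cSub _ (k, (c, w)) ≪≫ whiskerLeftIso _ i.symm)
        (h.iso (d - c) (T - w) (by omega) (l - k))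
    exact fb_c1 _ _ _ a.isOpHom_φ b.isOpHom_φ s.hx s.hom.φ_z s.hχ s.attN.w s.attZ.w (cPred l _)
      (h.iso d T hT l) (h.iso d T hT _) (t _) (t _)
      (bij_c1 (worldE hp.out) s.attN hA.hv h.posN (hA.posT le_rfl) hw ⟨i⟩ hk l d (hT.trans_lt hP))
      (bijK C (hZ d T (hT.trans_lt hP)) l)
  · refine V.Surj.van (.of_bijective (bijK_left C F.nf0_RM (hZ d T (h3.trans_lt hP)) l))
      ((isCone_kP _).van_cone (h.tw d T h3 (sh_one.1 (sh_add.1 hs)).1 l) ?_)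
    refine (Cells.Van.tensor (e := (k, (c, w))) (h.tw (d - c) (T - w)
      (by omega) (sh_one.1 (sh_add.1 hs)).2 (l - 1 - k))).of_iso ?_
    exact whiskerLeftIso _ ((kT ι p).mapIso i.symm ≪≫ asIso (kφ p e)) ≪≫ α_ _ _ _

theorem gd_kappa (h : Gd p P D B a) (s : NZ.Step e a b) (hA : IsZero A)
    (hv : HV Y.V) (hY : PosT Y.V 1) (h0 : IsZero ((sE p).obj Y.V)) : Gd p P D B b := by
  have hZ := bij_ah_hom s.attZ hv h.posZ hY h0
  obtain ⟨j, hj, -⟩ := IsAtt.exists_iso (isAttach_zero hA a.N) (hA.eq_of_src s.x 0 ▸ s.attN)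
  refine ⟨V.posT_attach s.attN h.posN (.of_isZero hA),
    V.posT_attach s.attZ.und h.posZ (V.posT_mono hY zero_le_one), fun d T hT l => ?_,
    fun d T h3 hs l => V.Surj.van
      (.of_bijective (bijK_left C F.nf0_RM (hZ d T) l)) (h.tw d T h3 hs l)⟩
  refine FB.of_pre (Bij.of_isIso _ ((sE p).map (ahIso j).hom)) ?_
  rw [← kf_map, show (ahIso j).hom = ah s.hom.n from congrArg ah ((Category.id_comp _).symm.trans hj),
    ← s.hom.φ_z, kf_comp]
  exact (h.iso d T hT l).post (bijK C (hZ d T) l)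

end steps

/-- **The step `σ`.** -/
theorem un_sigma (h : UN p P a D) {c : Lam} {w k : ℤ} (hP : P < p * w) {A : MM}
    (hA : NF A (c, w) k) (hk : Even k) (hw : 0 ≤ w) (hQ : PosT Q.V w)
    (g : (sH ι p).obj Q ⟶ (sH ι p).obj a.Z.X) (y : A ⟶ a.N.X)
    (t : (kT ι p).obj ((sE p).obj A) ≅ (kP ι p).obj Q)
    (ht : (kT ι p).map ((sE p).map y) ≫ kφ p a.φ = t.hom ≫ (Kl.ks _).map g) :
    ∃ (b : NZ (SM ι) B) (f : NZ.Hom (𝟙 B) a b) (A' : MM) (u : A' ⟶ A) (χ : A' ⊗ CI MM ⟶ b.N.X),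
      NF A' (c, w) k ∧ IsIso ((sE p).map u) ∧ IsAttach f.n (u ≫ y) χ ∧ UN p P b (D + one c w) ∧
        g ≫ (sH ι p).map (ah f.z) = 0 := by
  obtain ⟨Y, e, z, j, h1, h2, h3, h4⟩ := exists_fat (D := DH ι p) (A := (uL (SM ι)).obj A)
    (Kl.un t.hom) g ((uL (SM ι)).map y ≫ a.φ)
    ((congrArg Kl.un ((kf_map _ _ _ y a.φ).trans ht)).trans (Kl.un_comp_ks _ _))
    (fun X => PosT X.V w) (fun _ => posT_UH) posT_I posT_po (posT_uL (hA.posT le_rfl)) hQ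
  have : IsIso (kφ p e) := by
    rw [show kφ p e = t.hom ≫ (Kl.ks _).map j.hom from
      Kl.hom_ext (h2.trans (Kl.un_comp_ks _ _).symm)]
    infer_instance
  have : IsIso (kφ p (stb (De p) e)) := IsIso.of_isIso_fac_right (kφ_stb e)
  obtain ⟨b, s, hx, hy⟩ := a.exists_step (e := stb (De p) e) (x := (De p).t A ≫ y)
    (y := tt (lamU _ (De p)) Y ≫ z) (by
      rw [← Category.assoc, stb_tt, Category.assoc, h1, Functor.map_comp, Category.assoc])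
  refine ⟨b, s.hom, _, (De p).t A, s.χ, .U_tensor hA.nf0, inferInstance, hx ▸ s.attN,
    UNZ.step h s fun _ _ _ _ _ _ s' _ _ _ _ _ l hB => gd_sigma C (l hB) s' hP (.U_tensor hA.nf0) hk
      hw (hv_U _) (posT_U h4), ?_⟩
  have h5 := st_cone_zero (DH ι p) s.ξ
  rw [s.attZ.w, hy, Category.assoc, Functor.map_comp, Preadditive.IsIso.comp_left_eq_zero] at h5
  rw [← h3, Category.assoc, ← Functor.map_comp, h5, comp_zero]

/-- **The step `κ`.** -/
theorem un_kappa (h : UN p P a D) (x : Y ⟶ a.Z.X) (hx : (sH ι p).map x = 0) (hv : HV Y.V)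
    (hY : PosT Y.V 1) : ∃ (Z : CommMon (Action MM (Perm ι))) (z : a.Z ⟶ Z) (χ : Y ⊗ CI _ ⟶ Z.X),
      coneBase Y ≫ χ = x ≫ ah z ∧ UN p P (a.ext z) D := by
  obtain ⟨k, ζ, hζ⟩ := exists_tt_null hx
  have H := isPushout_cone_whiskerRight ((DH ι p).tk k (𝟙_ _)) Y
  obtain ⟨Z, z, ξ, hz⟩ := exists_isAttach (H.desc ζ _ hζ)
  refine ⟨Z, z, ((λ_ Y).inv ≫ ci _ ▷ Y) ▷ _ ≫ ξ, by
    rw [coneBase_naturality_assoc, hz.w, Category.assoc, H.inr_desc_assoc, Category.assoc,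
      Iso.inv_hom_id_assoc], UNZ.step h (a.extStep hz isZero_empty)
    fun _ _ _ _ _ _ s' _ _ _ _ _ l hB => gd_kappa C (l hB) s' isZero_empty (hv.tensor' _) ?_ ?_⟩
  · simpa using V.posT_tensor (posT_coneV ((DH ι p).tk k (𝟙_ _))
      (pr_pw (Pr := fun X : Action MM (Perm ι) => PosT X.V 0) (fun _ => posT_UH) V.posT_unit k)
      V.posT_unit) hY
  · exact (tensorRight ((sE p).obj Y.V)).map_isZero (isZero_coneV ((DH ι p).tk k (𝟙_ _)))

variable [DecidableEq ι] (h3 : 3 ≤ Nat.card ι)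
include h3

theorem gd_base [Fintype ι] {τ} (hτ : C.IsTau τ) (hs0 : 0 < s) (hP : P < (p - 1) * s)
    (hA : NF A (0, (s : ℤ)) 0) (e : (sE p).obj A ≅ (sE p).obj (rp (0, (s : ℤ))))
    {x : A ⟶ 𝟙_ MM} {j : QD ι s ⟶ Y} [IsIso ((sH ι p).map j)] {z : Y ⟶ 𝟙_ _} (hz : j ≫ z = fd ι s)
    {e₀ : (uL (SM ι)).obj A ⟶ Y} (h0 : e₀ ≫ z = (uL (SM ι)).map x ≫ η (uL (SM ι)))
    (h1 : kφ p e₀ = (kT ι p).map e.hom ≫ trf s τ ≫ (kP ι p).map j) (hY : PosT Y.V s)
    {κ : cone j ⟶ (Cb ι s).X} (h2 : M.ck j ≫ κ = nul ι hs0) (h2' : ci j ≫ κ = z ≫ MonObj.one)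
    {a b : NZ (SM ι) B} {k : Cb ι s ⟶ a.Z} [IsIso a.β] [IsIso (cdsc a.γ k)]
    (t : NZ.Step (stb (De p) (e₀ ≫ ci j)) a b) (hx : t.x = ((De p).t A ≫ x) ≫ MonObj.one)
    (hy : t.y = (tt (lamU _ (De p)) _ ≫ κ) ≫ ah k) (hB : PosT B.X 0) :
    Gd p P (one 0 s) B b := by
  have hp3 : 3 ≤ p := hι.out ▸ h3
  have hs1 : (1 : ℤ) ≤ s := Int.ofNat_le.2 hs0
  have hP' : P < p * s := by
    rw [sub_one_mul] at hP
    omega
  have hA' : NF ((De p).U ⊗ A) (0, (s : ℤ)) 0 := .U_tensor hA.nf0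
  have hK : PosT (cone j).V 1 :=
    V.posT_mono (posT_coneV j (Z.supp_RT _ |>.mono fun _ h => h.2) hY) hs1
  have pZ : PosT a.Z.X.V 0 := Supp.of_iso (V.posT_mono (V.posT_tensor hB posT_Cb) (by simp))
    ((Action.forget _ _).mapIso (ahIso (asIso (cdsc a.γ k))))
  have hZ := bij_ah_hom t.attZ (hv_U _) pZ (posT_U hK)
    ((tensorLeft ((sE p).obj (De p).U)).map_isZero (isZero_coneV j))
  have att : IsAttach b.β (((De p).t A ≫ x) ≫ MonObj.one) t.χ := t.hβ ▸ isAtt_iso_comp a.β (by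
    rw [Category.assoc, IsMonHom.one_hom, ← hx]
    exact t.attN)
  refine ⟨V.posT_attach att hB (hA'.posT (Int.natCast_nonneg s)),
    V.posT_attach t.attZ.und pZ (V.posT_mono (posT_U hK) zero_le_one), fun d T hT l => ?_,
    fun d T k3 hs l => ?_⟩
  · have t' := fb_trf C h3 hτ e h1 B.X
    have hξ : coneBase _ ≫ t.ξ = tt (lamU _ (De p)) _ ≫ κ ≫ ah (k ≫ t.hom.z) := by
      rw [t.attZ.w, hy, ah_comp, Category.assoc, Category.assoc]
    have w : coneBase _ ≫ (_ ◁ ci j) ▷ CI _ ≫ t.ξ =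
        (tt (lamU _ (De p)) Y ≫ z ≫ MonObj.one) ≫ ah b.γ := by
      rw [coneBase_naturality_assoc, hξ, E.tt_nat_assoc, reassoc_of% h2', Category.assoc,
        Category.assoc, IsMonHom.one_hom, IsMonHom.one_hom]
    obtain ⟨i⟩ := hA'.iso p
    refine fb_c1 _ _ _ (Z := trivC _ B) (isOpHom_prS B) b.isOpHom_φ
      (stb_one (Z := trivC _ B) h0 (isOpHom_prS B)) b.β_φ.symm
      (by rw [t.hχ, ← comp_whiskerRight_assoc, ← stb_comp]) att.w w (cPred l _)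
      (fb_prS C h3 _ _) (fb_prS C h3 _ _) (t' _) (t' _)
      (bij_c1 (worldE hp.out) att hA'.hv hB (hA'.posT le_rfl) (Int.natCast_nonneg s) ⟨i⟩ Even.zero
        l d (hT.trans_lt hP'))
      (Kl.bij_ks.2 (bij_dbl _ hz (coneBase_nul hs0) h2 hξ w ?_))
    rw [show cdsc b.γ (k ≫ t.hom.z) = cdsc a.γ k ≫ t.hom.z from cten_ext
      (by rw [cinl_cdsc, cinl_cdsc_assoc, t.hγ]) (by rw [cinr_cdsc, cinr_cdsc_assoc]), ah_comp,
      Functor.map_comp, Functor.map_comp]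
    exact (bij_cb_tau hp3 (X := (triv _).obj B.X) hB (F.sg_map_triv _ _) (hT.trans_lt hP) hs0
      l d).comp ((Bij.of_isIso _ ((sH ι p).map (ahIso (asIso (cdsc a.γ k))).hom)).comp
        (Kl.bij_ks.1 (bijK C (hZ d T) l)))
  · exact V.Surj.van (.of_bijective (bijK_left C F.nf0_RM (hZ d T) l))
      ((van_cb C h3 hs0 hP hB (sub_zero d ▸ (sh_one.1 hs).2) (by omega) k3 l).of_iso
        ((kP ι p).mapIso (α_ _ _ _ ≪≫ whiskerLeftIso _ (ahIso (asIso (cdsc a.γ k))))))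

/-- **The base level.** -/
theorem un_base (hs0 : 0 < s) (hP : P < (p - 1) * s) (hA : NF A (0, (s : ℤ)) 0) (x : A ⟶ 𝟙_ MM)
    (e : (sE p).obj A ≅ (sE p).obj (rp (0, (s : ℤ))))
    (hx : (sE p).map x = p • (e.hom ≫ (sE p).map (t1 s))) :
    ∃ (a : NZ (SM ι) (CommMon.trivial MM)) (A' : MM) (u : A' ⟶ A) (χ : A' ⊗ CI MM ⟶ a.N.X),
      NF A' (0, (s : ℤ)) 0 ∧ IsIso ((sE p).map u) ∧ IsAttach a.β (u ≫ x) χ ∧
        UN p P a (one 0 s) := by
  have := Fintype.ofFinite ι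
  obtain ⟨τ, hτ⟩ := C.exists_tau
  have h0 : kφ p ((uL (SM ι)).map x ≫ η (uL (SM ι))) =
      ((kT ι p).map e.hom ≫ trf s τ) ≫ (kP ι p).map (fd ι s) := by
    refine (kf_map _ _ _ _ _).trans ?_
    rw [← (isOpNat_uPr (SM ι)).unit, kf_comp, hx, Category.assoc, trf_fd h3 hτ,
      Functor.map_nsmul, Functor.map_comp, Preadditive.nsmul_comp, Preadditive.comp_nsmul,
      Category.assoc, tA, Functor.map_comp]
    exact congrArg (fun y => p • (_ ≫ y)) (congrArg₂ (· ≫ ·) (congrArg _ (tau_st _ _ _ _))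
      ((congrArg (· ≫ _) (kφ_prS _)).trans (Category.id_comp _)))
  obtain ⟨Y, e₀, z, j, h1, h2, h4, h5, h6⟩ := exists_fat' (D := DH ι p)
    (fun X => PosT X.V s) (fun _ => posT_UH) posT_I posT_po (posT_uL (hA.posT le_rfl))
    (Z.supp_RT _ |>.mono fun _ h => h.2) (Kl.un ((kT ι p).map e.hom ≫ trf s τ)) (fd ι s) _
    ((congrArg Kl.un h0).trans (Kl.un_comp_ks _ _))
  have w : coneBase _ ≫ nul ι hs0 = j ≫ z ≫ MonObj.one := by rw [coneBase_nul, reassoc_of% h2]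
  obtain ⟨b, χ, h7, h8⟩ := exists_bot (e := stb (De p) (e₀ ≫ ci j)) (x := (De p).t A ≫ x)
    (y := tt (lamU _ (De p)) _ ≫ cdesc _ _ w) (Q := fun B b => PosT B.X 0 → Gd p P (one 0 s) B b)
    (by rw [← Category.assoc (stb _ _), stb_tt, Category.assoc, Category.assoc, ci_cdesc,
        ← Category.assoc e₀, h1, Functor.map_comp, Category.assoc, Category.assoc])
    fun _ _ _ _ t _ _ => gd_base C h3 hτ hs0 hP hA e h2 h1 (Kl.hom_ext (h5.trans
      ((Kl.un_comp_ks _ _).symm.trans (congrArg Kl.un (Category.assoc _ _ _))))) h6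
      (ck_cdesc _ _ _ w) (ci_cdesc _ _ _ w) t
  exact ⟨b, _, (De p).t A, χ, .U_tensor hA.nf0, inferInstance, h7, h8⟩

end Vale.Agent.P257.G.R
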