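import Vale.Agent.P257.G.Num

/-!
# P257, rescaled windows: the filtration degrees of the cells and the window estimate

The cells have the degrees `2, 2, 4, 8, …`, the cells `σ` have the degrees `5, 8, 16, …`, the base
cell of the levels has degree `3`.
-/

open Pointwise

namespace Vale.Agent.P257.G.R

open Vale.Agent.P257.M

/-- the filtration degrees of the cells -/
def ww : ℕ → ℕ
  | 0 => 2
  | j + 1 => 2 ^ (j + 1)

/-- the filtration degrees of the cells `σ` -/
def uu (j : ℕ) : ℕ := ww j + 3 * 2 ^ j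

/-- the number of critical cells -/
def NN : ℕ → ℕ
  | 0 => 0
  | j + 1 => NN j + (j + 1)

/-- the start of the window -/
def WW (w : ℕ → ℕ) (i : ℕ) : ℕ := ∑ j ∈ Finset.range i, w j

theorem WW_succ (w : ℕ → ℕ) (i : ℕ) : WW w (i + 1) = WW w i + w i := Finset.sum_range_succ _ _

theorem ww_zero : ww 0 = 2 := rfl

theorem ww_succ (j : ℕ) : ww (j + 1) = 2 * 2 ^ j := pow_succ' 2 j

theorem uu_zero : uu 0 = 5 := rfl

theorem uu_succ (j : ℕ) : uu (j + 1) = 8 * 2 ^ j := by
  rw [uu, ww_succ, pow_succ]
  omega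

theorem WW_ww (j : ℕ) : WW ww (j + 1) = 2 * 2 ^ j := by
  induction j with
  | zero => rfl
  | succ j ih =>
    rw [WW_succ, ih, ww_succ, pow_succ]
    omega

theorem WW_le (j : ℕ) : WW ww j ≤ ww j := by
  cases j with
  | zero => exact Nat.zero_le _
  | succ j => rw [WW_ww, ww_succ]

theorem two_le_ww (j : ℕ) : 2 ≤ ww j := by
  cases j with
  | zero => exact le_rfl
  | succ j =>
    have := Nat.one_le_two_pow (n := j)
    rw [ww_succ]
    omega

theorem ww_pos (j : ℕ) : 1 ≤ ww j := one_le_two.trans (two_le_ww j)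

theorem ww_le_uu (j : ℕ) : ww j ≤ uu j := Nat.le_add_right _ _

theorem ww_succ_le (j : ℕ) : ww (j + 1) ≤ uu j := by
  have := Nat.one_le_two_pow (n := j)
  rw [ww_succ, uu]
  omega

theorem uu_le {j n : ℕ} (hn : 2 ≤ n) (h : j < n) : uu j ≤ 2 * 2 ^ n := by
  cases j with
  | zero =>
    have := Nat.pow_le_pow_right two_pos hn
    rw [uu_zero]
    omega
  | succ j =>
    have := Nat.pow_le_pow_right two_pos (show j + 2 ≤ n by omega)
    rw [pow_add] at this
    rw [uu_succ]
    omega

theorem NN_le (j : ℕ) : NN (j + 4) + (j + 4) ≤ 2 ^ (j + 4) := by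
  induction j with
  | zero => decide
  | succ j ih =>
    have : j + 4 < 2 ^ (j + 4) := Nat.lt_two_pow_self
    have h : j + 6 ≤ 2 ^ (j + 4) := by
      have : j < 2 ^ j := Nat.lt_two_pow_self
      rw [pow_add]
      omega
    rw [show j + 1 + 4 = j + 4 + 1 by omega, NN, pow_succ]
    omega

/-- the products of the pairs of cells -/
def DB : ℕ → Set (Lam × ℤ)
  | 0 => one (ee 0) (ww 0)
  | j + 1 => DB j + one (ee (j + 1)) (ww (j + 1))

/-- the products of the cells `σ` -/
def DS (p : ℕ) : ℕ → Set (Lam × ℤ)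
  | 0 => one 0 (3 : ℕ)
  | j + 1 => DS p j + one (p • ee j) (uu j)

theorem DB_bx : ∀ j, DB j ⊆ Bx (WW ww (j + 1))
  | 0 => bx_one (ee_mem 0) (Int.natCast_nonneg (ww 0))
  | j + 1 => by
    have := bx_add (DB_bx j) (bx_one (ee_mem (j + 1)) (Int.natCast_nonneg (ww (j + 1))))
    rwa [← Nat.cast_add, ← WW_succ] at this

theorem DS_bx (p : ℕ) : ∀ j, DS p j ⊆ Bx (3 + WW uu j : ℕ)
  | 0 => bx_one Cn.zero_mem (Int.natCast_nonneg 3)
  | j + 1 => by
    have := bx_add (DS_bx p j) (bx_one (Cn.nsmul_mem (ee_mem j) p) (Int.natCast_nonneg (uu j)))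
    rwa [← Nat.cast_add, add_assoc, ← WW_succ] at this

theorem DS_le (j : ℕ) : 3 + WW uu j ≤ 4 * 2 ^ j := by
  have h : ∀ j, 3 + WW uu (j + 1) = 8 * 2 ^ j := fun j => by
    induction j with
    | zero => rfl
    | succ j ih =>
      rw [WW_succ, uu_succ, pow_succ]
      omega
  cases j with
  | zero => decide
  | succ j =>
    rw [h, pow_succ]
    omega

theorem win_aux (p j : ℕ) : ∀ x ∈ DB j, ∀ y ∈ DS p j,
    (∀ m < j, 0 ≤ el m (p • ee j - (x + y).1)) → (x + y).2 ≤ uu j := by
  induction j with
  | zero =>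
    intro x hx y hy _
    have h1 := (bx_one (ee_mem 0) (Int.natCast_nonneg _) hx).2.2
    have h2 := (bx_one Cn.zero_mem (Int.natCast_nonneg _) hy).2.2
    rw [ww_zero] at h1
    rw [Prod.snd_add, uu_zero]
    omega
  | succ j ih =>
    rintro _ ⟨x, hx, u, hu, rfl⟩ _ ⟨y, hy, v, hv, rfl⟩ h
    have h1 := DB_bx j hx
    have h2 := DS_bx p j hy
    have h3 := h1.2.2
    have h4 := h2.2.2
    have h8 := WW_ww j
    have h9 := DS_le j
    have h11 := uu_succ j
    simp only [Prod.snd_add, Prod.fst_add, map_sub, map_add, map_nsmul, nsmul_eq_mul] at h ⊢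
    rcases hv with rfl | rfl
    · have h5 := (bx_one (ee_mem (j + 1)) (Int.natCast_nonneg (ww (j + 1))) hu).2.2
      rw [ww_succ] at h5
      rw [Prod.snd_zero]
      omega
    · have h5 := h j j.lt_succ_self
      have h6 := h1.1.2 j
      have h7 := h2.1.2 j
      rcases hu with rfl | rfl
      · rw [Prod.snd_zero]
        cases j with
        | zero =>
          rcases hx with rfl | rfl
          · rw [uu_zero, Prod.snd_zero]
            change y.2 ≤ ((3 + 0 : ℕ) : ℤ) at h4
            omega
          · simp only [map_nsmul, nsmul_eq_mul, el_succ, el_self, Prod.fst_zero, map_zero] at h5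
            omega
        | succ j =>
          have h10 := ih x hx y hy fun m hm => by
            have := h m (by omega)
            simp only [Prod.fst_add, map_sub, map_add, map_nsmul, nsmul_eq_mul, Prod.fst_zero,
              map_zero, el_two hm] at this ⊢
            linarith
          rw [Prod.snd_add] at h10
          have h12 := uu_succ j
          rw [pow_succ] at h11
          omega
      · simp only [map_nsmul, nsmul_eq_mul, el_succ, el_self] at h5
        omega

/-- **The window in the weight `p • ee j`.** -/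
theorem win (p j : ℕ) : sh w0 (DB j + DS p j) (p • ee j) (uu j) := by
  rintro _ ⟨x, hx, y, hy, rfl⟩ h
  exact sub_nonneg.2 (win_aux p j x hx y hy fun m _ => h.2 m)

end Vale.Agent.P257.G.R
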