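import Vale.Agent.P257.G.Glue
import Vale.Agent.N257.Muw
import Vale.Agent.N257.DivS

/-!
# P257, rescaled windows: the class constructed in the inductive step comes from a detected class
-/

open CategoryTheory MonoidalCategory Limits Functor.LaxMonoidal Functor.OplaxMonoidal Pointwise

namespace Vale.Agent.P257.G.R

open Vale.Agent.P251.H Vale.Agent.P251.H.StabInput
open K M D D.EF C A T L W
open Vale.Agent.P257.N (NZ SM kT kP kφ NIso NTw GH CX aH trivMap_comp st_cone_zero)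
open Vale.Agent.P257.E (triv JA)
open Vale.Agent.P257.F (DH sH RH)
open Equiv (Perm)

universe w

variable {p m : ℕ}

variable {ι : Type} [Finite ι] [DecidableEq ι] [Nontrivial ι] [hp : Fact p.Prime]
  [hι : Fact (Nat.card ι = p)]
  {C : CommMon MM} [MonObj ((sE p).obj C.X)] {A₀ : Type w} [CommRing A₀] {G : RegSeq p A₀}
  {Q : Coef (SC.sph (De p)) ((sE p).obj C.X) G} {T T' A R B : CommMon MM}
  {P Lm : ℕ} {NB NN : ℤ}

/-- **Detection of the quotient of the Frobenius.** -/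
theorem det_next (h0 : Le0 C.X) (hq0 : Lq C.X) (h1 : Supp C.X {g : Gam | g.1 = 0})
    (hC : GP (sE p) (tE p) (V.par p P Lm hp.out.pos) C.X w0 0)
    (hη : MonObj.one (X := (sE p).obj C.X) = (sE p).map (MonObj.one (X := C.X)))
    (hV : Q.IsV 0 ((p : ℤ) • MonObj.one (X := (sE p).obj C.X)))
    (hdet : ∀ X, NF X (ee m, 0) (dd p m - 1) →
      DetK p ι (cinl C T0) (IsVP Q m (ee m)) (IsVP Q (m + 1) (p • ee m)) X)
    (hl : 4 ≤ Nat.card ι) (hP : ∀ k, P < p * ww k) (hL : Lm < p ^ 2)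
    (hw : uu m ≤ P) (hb : ell (p • ee m) ≤ Lm) (hNN : 3 * 2 ^ m + NN + m + 2 ≤ 2 * p)
    (tc : TC (okW p ww) T0 m T) (hd : tc.All (DetS Q ee ww)) (s : TStep T T')
    (hok : okW p ww m s.X) (hs : DetS Q ee ww m T T' tc.i0 s) {sp0 : A ⟶ T0} {sp : R ⟶ T}
    (c : RC A sp0 tc R sp) (hA : M.Good A) (hAq : Lq A.X) {sp' : B ⟶ T'} (r : RStep s sp sp')
    (nz : NZ (SM ι) B) (hU : UN p P nz (DS p m)) {uB : CommMon.trivial MM ⟶ B}
    (pB : UP (sE p) (tE p) (V.par p P Lm hp.out.pos) uB (DB m) NB) {uN : CommMon.trivial MM ⟶ nz.N}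
    (pN : UP (sE p) (tE p) (V.par p P Lm hp.out.pos) uN (DB m + DS p m) NN) (F : R ⟶ FC ι nz.Z)
    (hF : FOn hl hAq c.i0 (trivMap _ (c.i0 ≫ r.i) ≫ nz.γ) F) (fold : nz.N ⟶ T')
    (hfold : nz.β ≫ fold = sp') {cc : O} {n : ℕ} (hc : Nonempty cc.El)
    (hn : (n : ℤ) = Fintype.card cc.El + (dd p m - 1))
    (e : s.X ≅ rep (⟨cc, (ee m, (ww m : ℤ))⟩ : JG) ⊗ tpow (S MM) n) {W : SC (DH ι p)}
    {f : (sH ι p).obj ((FL (Perm ι) ι).obj s.X) ⟶ W} (ef : Eu (aH ι (DH ι p)) (n + 2) f)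
    {q : W ⟶ (sH ι p).obj nz.Z.X} (hq : f ≫ q = (sH ι p).map (fV F r.v)) {Y : EE p}
    (c' : Y ≅ (cE p).obj (dd p (m + 1) - 1, (p • ee m, (uu m : ℤ))))
    (t : (kT ι p).obj Y ≅ (Kl.ks _).obj W) {y : Y ⟶ (sE p).obj nz.N.X}
    (ht : (kT ι p).map y ≫ kφ p nz.φ = t.hom ≫ (Kl.ks _).map q) :
    DetV Q (m + 1) (tc.i0 ≫ s.i) (p • ee m) (uu m) (y ≫ (sE p).map (ah fold)) := by
  have Cx : CX ι p := Z.ctx iG p ι
  have h3' : 3 ≤ Nat.card ι := by omega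
  have hw' : (uu m : ℤ) ≤ P := Int.ofNat_le.2 hw
  have hr : ww m ≤ uu m := ww_le_uu m
  obtain ⟨A₁, R₁, B₁, κ, σ₀, fA, i, g, j, g', σ, X₀, ξ, ε, hA₁, hAq₁, hκ, po, hj, hσ, hφ, ⟨χ, att⟩, ex,
    hξ, hvp⟩ := exists_muw hp.out h0 h1 hC.posT hη hV ww_pos (WW_le m)
      (fun k => (hr.trans hw).trans_lt (hP k)) tc hd s hok hs c hA r
  obtain ⟨a₁, k₁, po₁⟩ := hU.ex (cinr C B ≫ g')
  have gB₁ := gp_muw hp.out hL hC pB ex (β := 𝟙 B) (β₁ := 𝟙 B₁) (n := cinr C B ≫ g')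
    (IsPushout.of_horiz_isIso ⟨by rw [Category.id_comp, Category.comp_id]⟩)
  have gN₁ := gp_muw hp.out hL hC pN ex po₁.1
  have G₁ := (hU.bc po₁).gd gB₁.posT
  obtain ⟨F₁, hF₁, hF'⟩ := hF.bc (hAq₁ hq0 hAq) po (z := k₁.z) (γ' := trivMap _ (i ≫ j) ≫ a₁.γ) (by
    rw [Category.assoc, k₁.hγ, ← Category.assoc, ← Category.assoc, ← trivMap_comp, ← trivMap_comp,
      Category.assoc, hj, reassoc_of% po.w])
  obtain ⟨X', ξ', δ, u, U, j', e', d, f', hX', hδ, -, hu, ed, ef', hU', hf'⟩ :=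
    exists_rerep (m := 3 * 2 ^ m) hF₁ (by rw [ell_ee]; push_cast; rfl) hc hn e (r.v ≫ ah g) ξ ε hξ
  have k1 : (p : ℤ) * (dd p m - 1) = 2 * p ^ (m + 1) - 2 * p := by
    rw [dd]
    ring
  obtain ⟨o, o1, o2⟩ := P257.G.glue3 Cx h3' hκ (j := i ≫ j)
    hX' (even_dd p m) (hdet _ hX') (ξ := ξ') (by
      rw [Functor.map_comp, hδ, Category.assoc, ← Functor.map_comp]
      exact hvp.iso δ) hr (by
      rw [ah_comp, ← Category.assoc ξ', ← Category.assoc, Functor.map_comp, hu, ← Functor.map_comp,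
        Category.assoc, ← att.w, Functor.map_comp, st_cone_zero, comp_zero])
    ed hU' ((ef'.comp ef).cast (add_assoc _ _ _).symm) (q := q ≫ (sH ι p).map (ah k₁.z)) (by
      rw [Category.assoc, reassoc_of% hq, ← Functor.map_comp, ← fV_nat hF', hf']
      rfl)
    (G₁.iso _ _ hw') (G₁.tw' gB₁ (DS_bx p m) hb hw' (win p m))
    (fun l k => van_next gN₁ hb hw (by omega)) c' t (kφ_push k₁ ht)
  have tf : ∀ l, Odd l → ∀ x : (cE p).obj (l, (p • ee m, 0)) ⟶ (sE p).obj (cten C T0).X,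
      p • x = 0 → x = 0 := by
    rintro _ ⟨l, rfl⟩ x hx
    exact tf_odd Q h0 h1 (r := 0) l x ((natCast_zsmul _ _).trans hx)
  obtain ⟨A₂, s₂, σ₂, hX₂, hα, ho⟩ := exists_kill σ₀ o (tf _ ⟨p ^ (m + 1) - 2, by rw [k1]; ring⟩ _
    (by rw [← Preadditive.nsmul_comp, o1, zero_comp]))
  obtain ⟨B₂, σ', j₂, po₂, ex₂⟩ :=
    (Ex.single (P := Nv p) (m := 1) s₂ ⟨_, _, hX₂, ok_next hp.out.pos,
      fun l => absurd l one_ne_zero⟩).exists_isPushout (i ≫ j)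
  obtain ⟨a₂, k₂, pk₂⟩ := (hU.bc po₁).ex σ'
  have gB₂ := ((up_ex (worldE hp.out) (hp := hp.out.pos) hL ex₂).self (mn_w0.sh _) gB₁).mono
    (fun _ _ => sh_zero.2) le_rfl
  have G₂ := ((hU.bc po₁).bc pk₂).gd gB₂.posT
  obtain ⟨Y', x, ε', hx, hy⟩ := o2 k₂ hα po₂.w.symm (G₂.iso _ _ hw')
    (G₂.tw' gB₂ (DS_bx p m) hb hw' (win p m)) ho
  have w₂ : s₂.i ≫ σ₂ ≫ cwl C (tc.i0 ≫ s.i) = (i ≫ j) ≫ σ := by
    rw [reassoc_of% hα, Category.assoc, hφ]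
  have po₃ := (po₁.comp pk₂).1
  have w : nz.β ≫ fold ≫ cinr C T' = ((cinr C B ≫ g') ≫ σ') ≫ po₂.desc _ _ w₂ := by
    rw [reassoc_of% hfold, Category.assoc, po₂.inr_desc, Category.assoc, hσ, cinr_cwl]
  obtain ⟨ψ, e1, e2⟩ : ∃ ψ : a₂.N ⟶ cten C T', k₁.n ≫ k₂.n ≫ ψ = fold ≫ cinr C T' ∧
      j₂ ≫ a₂.β ≫ ψ = σ₂ ≫ cwl C (tc.i0 ≫ s.i) :=
    ⟨po₃.desc _ _ w, (Category.assoc _ _ _).symm.trans (po₃.inl_desc _ _ w),
      (congrArg _ (po₃.inr_desc _ _ w)).trans (po₂.inl_desc _ _ _)⟩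
  refine detV_of_isVP hη c' hx ε' ?_
  have k2 := congrArg (· ≫ (sE p).map (ah ψ)) hy
  beta_reduce at k2
  simp only [Category.assoc, ← Functor.map_comp, ← ah_comp] at k2 ⊢
  rwa [e2, e1] at k2

/-- **GLUE** -/
theorem glue {p n : ℕ} [hp : Fact p.Prime] {hl : 4 ≤ Nat.card (Fin p)} {A₀ : Type}
    [CommRing A₀] {G : RegSeq p A₀} {Q : Coef (SC.sph (De p)) ((sE p).obj MG.X) G}
    (h : Num p n) (D : IsMU Q) : Glue (Fin p) n hl Q := by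
  intro j hj σ hd c m hc hm e V f ef g hg Y c' t y ht
  have : Nontrivial (Fin p) := Fin.nontrivial_iff_two_le.2 hp.out.two_le
  have h1 := uu_le h.two hj
  have h8 : ∀ k, (uu j : ℤ) < p * ww k := fun k => by
    exact_mod_cast h.lt_of_le h1 k
  have ho := oddCells_okW (p := p) ww_pos
  exact detV_down (r := ww (j + 1)) (f := uu j - ww (j + 1))
    (Nat.add_sub_cancel' (ww_succ_le j)) c' (det_next le0_MG (Lq.of_deg deg_MG) wt_MG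
    (gp_zero (D.prof _ _ _) posT_MG wt_MG) (one_MG p) D.isV
    (fun X k => D.det j _ X (by rwa [show 2 * ((p : ℤ) ^ j - 1) = dd p j - 1 by rw [dd]; ring]))
    hl h.lt h.lm_lt h1 (ell_le p hj) (by exact_mod_cast h.dim hj) σ.tc hd.1 σ.s σ.hs hd.2 σ.c
    σ.good σ.lq σ.r σ.nz σ.un σ.upB σ.upN σ.Fr σ.hFr σ.fold σ.hfold hc hm e ef hg c' t ht)
    (stab_tc_le0 (worldE hp.out) h8 ho σ.tc1 posT_T0 le0_T0 _)
    (stab_tc_le0_left (worldE hp.out) h8 ho σ.tc1 posT_MG le0_MG posT_T0 le0_T0 _)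
    (Int.ofNat_le.2 (WW_le (j + 1)))

end Vale.Agent.P257.G.R
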