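import Vale.Agent.N257.Step
import Vale.Agent.N257.Glue
import Vale.Agent.P257TW.Main

/-!
# P257, rescaled windows: the tower exists for `2 ^ n < p`
-/

open CategoryTheory MonoidalCategory Limits Pretriangulated MonObj

noncomputable section

namespace Vale.Agent.P257.G.R

open Vale.Agent.P251CY.V (HasTower)

section chain

open Vale.Agent.P251 Vale.Agent.P251.H Vale.Agent.P251.H.StabInput
open Vale.Agent.P251.M (IsInv)
open Vale.Agent.P257.W
open K M D D.EF C A T L

theorem of_QG {U : St.SHCat} (σ : St.Susp U) {p : ℕ} (hp : p.Prime) (h2 : p ≠ 2) {n : ℕ}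
    {a : ℕ → Lam} {w : ℕ → ℕ} {T : CommMon MM} (hw : ∀ i, 1 ≤ w i)
    (hn : ∀ j, WW w (n + 1) < p * w j)
    (tc : TC (okW p w) T0 (n + 1) T) (hd : tc.All (DetS (QG σ hp h2) a w)) :
    HasTower σ p n :=
  have : IsInv ((sE p).obj (rp (0, ((WW w (n + 1) : ℕ) : ℤ)))) := inferInstance
  P257TW.of_wTow_sc (n₀ := E.n0 p) hp h2 (fun _ k l => (Smooth.of_lt k l).dvd_pow) rfl
    (wTests p (0, (WW w (n + 1) : ℕ))) (wTests_sm _)
    (MTow.wTow (K := scMod (De p)) (SC.sphOne _) (wTests_sm _) hp (thom_MG σ p)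
      (mTow_tc (R := (sE p).obj MG.X) hp le0_MG wt_MG posT_MG (oddCells_okW hw) tc hd 0 le_rfl hn))
    σ

end chain

open Vale.Agent.P251.St Vale.Agent.P257.W

theorem hasTower_num {U : SHCat} (σ : Susp U) {n p : ℕ} (hp : p.Prime) (k : Num p n) :
    HasTower σ p n := by
  have : Fact p.Prime := ⟨hp⟩
  have : Nontrivial (Fin p) := Fin.nontrivial_iff_two_le.2 hp.two_le
  have h4 := k.five_le
  have h2 : p ≠ 2 := by omega
  have hl : 4 ≤ Nat.card (Fin p) := by
    rw [Nat.card_eq_fintype_card, Fintype.card_fin]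
    omega
  have key : ∀ j ≤ n, ∃ c : Core (Fin p) p n hl j, c.Det (QG σ hp h2) := fun j => by
    induction j with
    | zero => exact fun _ => exists_core_zero _ k
    | succ j ih =>
      exact fun hj => (ih (by omega)).elim fun c hc => Core.step _ k (Z.ctx iG p (Fin p))
        (glue k (isMU_QG h2 σ (detO_EM σ hp h2))) hj c hc
  obtain ⟨c, hc⟩ := key n le_rfl
  exact of_QG σ hp h2 ww_pos (k.lt_of_le (WW_ww _).le) c.tc1 hc

theorem hasTower_mono {U : SHCat} {σ : Susp U} {m n p : ℕ} (h : HasTower σ p n) (k : m ≤ n) :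
    HasTower σ p m :=
  h.imp fun _ l => ⟨l.1, fun j hj => l.2 j (hj.trans k)⟩

/-- **The tower of self maps in the improved range.** -/
theorem hasTower {U : SHCat} (σ : Susp U) (n p : ℕ) (hp : p.Prime) (h5 : 5 ≤ p)
    (h : 2 ^ n < p ∨ (n ≤ 4 ∧ 11 ≤ p)) : HasTower σ p n := by
  rcases h with h | h
  · rcases le_or_gt n 2 with k | k
    · exact hasTower_mono (hasTower_num σ hp (Num.of_two h5)) k
    · rcases le_or_gt 5 n with l | l
      · exact hasTower_num σ hp (Num.of_five l h)
      · have h8 := (Nat.pow_le_pow_right two_pos k).trans_lt h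
        refine P257TW.hasTower_four σ hp (by omega) ?_
        by_contra h11
        obtain rfl | rfl : p = 9 ∨ p = 10 := by omega
        all_goals exact absurd hp (by decide)
  · exact P257TW.hasTower_four σ hp h.1 h.2

end Vale.Agent.P257.G.R
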