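import Vale.Agent.N257.Lift
import Vale.Agent.N257.Gd
import Vale.Agent.N257.Fr3
import Vale.Agent.P257.G.DivS

/-!
# P257, rescaled windows: the state of the induction
-/

open CategoryTheory MonoidalCategory Limits Pointwise

namespace Vale.Agent.P257.G.R

open Vale.Agent.P251.H Vale.Agent.P251.H.StabInput
open Vale.Agent.P257.A Vale.Agent.P257.T Vale.Agent.P257.W Vale.Agent.P257.K Vale.Agent.P257.M
open Vale.Agent.P257.N (NZ SM kT kP kφ NTw)
open Vale.Agent.P257.F (DH sH RH RM)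
open Vale.Agent.P257.V (par Par)
open Equiv (Perm)

universe w

/-- the numerical condition -/
structure Num (p n : ℕ) : Prop where
  two : 2 ≤ n
  top : 2 ^ n < p
  dim : ∀ {j}, j < n → 3 * 2 ^ j + NN j + j + 2 ≤ 2 * p

namespace Num

variable {p n : ℕ}

theorem of_two (h : 5 ≤ p) : Num p 2 := ⟨le_rfl, h, fun {j} hj => by
  obtain rfl | rfl : j = 0 ∨ j = 1 := by omega
  · change 3 * 1 + 0 + 0 + 2 ≤ _
    omega
  · change 3 * 2 + 1 + 1 + 2 ≤ _
    omega⟩

theorem of_five (hn : 5 ≤ n) (h : 2 ^ n < p) : Num p n := ⟨by omega, h, fun {j} hj => by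
  have h1 := Nat.pow_le_pow_right two_pos hn
  rcases le_or_gt 4 j with k | k
  · obtain ⟨i, rfl⟩ : ∃ i, j = i + 4 := ⟨j - 4, by omega⟩
    have h2 := NN_le i
    have h3 := Nat.pow_le_pow_right two_pos (show i + 4 + 1 ≤ n by omega)
    rw [pow_succ] at h3
    omega
  · have h2 : ∀ j < 4, 3 * 2 ^ j + NN j + j + 2 ≤ 35 := by decide
    have := h2 j k
    omega⟩

variable (h : Num p n)
include h

theorem five_le : 5 ≤ p := by
  have := h.top
  have := Nat.pow_le_pow_right two_pos h.two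
  omega

theorem lm_lt' : p * 2 ^ (n - 1) < (p - 1) * p := by
  have h1 := h.top
  have h2 := h.five_le
  obtain ⟨m, rfl⟩ : ∃ m, n = m + 1 := ⟨n - 1, by have := h.two; omega⟩
  rw [pow_succ] at h1
  rw [mul_comm, Nat.add_sub_cancel]
  exact Nat.mul_lt_mul_of_pos_right (by omega) (by omega)

theorem lm_lt : p * 2 ^ (n - 1) < p ^ 2 := by
  rw [sq]
  exact h.lm_lt'.trans_le (Nat.mul_le_mul_right p (Nat.sub_le _ _))

theorem lt_two {t : ℕ} (k : 2 ≤ t) : 2 * 2 ^ n < p * t :=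
  lt_of_lt_of_le (by have := h.top; omega) (Nat.mul_le_mul_left p k)

theorem lt (k : ℕ) : 2 * 2 ^ n < p * ww k := h.lt_two (two_le_ww k)

theorem lt_of_le {t : ℕ} (l : t ≤ 2 * 2 ^ n) (k : ℕ) : t < p * ww k := l.trans_lt (h.lt k)

theorem lt_ww {j : ℕ} (hj : j ≤ n) (k : ℕ) : ww j < p * ww k := by
  refine h.lt_of_le ?_ k
  have := Nat.one_le_two_pow (n := n)
  cases j with
  | zero =>
    rw [ww_zero]
    omega
  | succ j =>
    have := Nat.pow_le_pow_right two_pos (show j ≤ n by omega)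
    rw [ww_succ]
    omega

theorem lt_base : ((2 * 2 ^ n : ℕ) : ℤ) < (p - 1) * (3 : ℕ) := by
  have := h.top
  have := h.five_le
  omega

end Num

theorem ell_le (p : ℕ) {j n : ℕ} (hj : j < n) : ell (p • ee j) ≤ (p * 2 ^ (n - 1) : ℕ) :=
  G.ell_le p (by omega)

/-- the parameters of the profile -/
noncomputable abbrev pa (p n : ℕ) [hp : Fact p.Prime] : Par Lam :=
  par p (2 * 2 ^ n) (p * 2 ^ (n - 1)) hp.out.pos

/-- the profile of an algebra, universally in a left factor -/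
def UP0 (p n : ℕ) [Fact p.Prime] (B : CommMon MM) (D : Set (Lam × ℤ)) (N : ℕ) : Prop :=
  UP (sE p) (tE p) (pa p n) (default : CommMon.trivial MM ⟶ B) D N

variable (ι : Type) [Finite ι] [Nonempty ι] (p : ℕ) [hp : Fact p.Prime] (n : ℕ)
  (hl : 4 ≤ Nat.card ι)

/-- the data after the cells `0, …, j` have been attached -/
structure Core (j : ℕ) where
  /-- the universal coefficients -/
  A : CommMon MM
  /-- the specialisation -/
  sp0 : A ⟶ T0
  /-- the actual algebra with `j` cells -/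
  T : CommMon MM
  /-- the actual algebra with `j + 1` cells -/
  T1 : CommMon MM
  /-- the actual chain -/
  tc : TC (okW p ww) T0 j T
  /-- the last cell -/
  s : TStep T T1
  hs : okW p ww j s.X
  /-- the universal algebra with `j` cells -/
  R : CommMon MM
  /-- the universal algebra with `j + 1` cells -/
  B : CommMon MM
  /-- the specialisation -/
  sp : R ⟶ T
  /-- the specialisation -/
  sp1 : B ⟶ T1
  /-- the universal chain -/
  c : RC A sp0 tc R sp
  /-- the last universal cell -/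
  r : RStep s sp sp1
  good : M.Good A
  lq : Lq A.X
  /-- the level -/
  nz : NZ (SM ι) B
  un : UN p (2 * 2 ^ n : ℕ) nz (DS p j)
  /-- the specialisation -/
  fold : nz.N ⟶ T1
  hfold : nz.β ≫ fold = sp1
  /-- the Frobenius -/
  Fr : R ⟶ FC ι nz.Z
  hFr : FOn hl lq c.i0 (trivMap (Perm ι) (c.i0 ≫ r.i) ≫ nz.γ) Fr
  upB : UP0 p n B (DB j) (NN j)
  upN : UP0 p n nz.N (DB j + DS p j) (NN j)

variable {ι p n hl} {j : ℕ}

/-- the actual chain with `j + 1` cells -/
abbrev Core.tc1 (σ : Core ι p n hl j) : TC (okW p ww) T0 (j + 1) σ.T1 := σ.tc.cons σ.s σ.hs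

/-- the universal chain with `j + 1` cells -/
abbrev Core.c1 (σ : Core ι p n hl j) : RC σ.A σ.sp0 σ.tc1 σ.B σ.sp1 := σ.c.cons σ.s σ.hs σ.r

/-- the Frobenius of the last attaching map -/
noncomputable abbrev Core.Fv (σ : Core ι p n hl j) :
    (FL (Perm ι) ι).obj σ.s.X ⟶ σ.nz.Z.X := fV σ.Fr σ.r.v

variable {MU : EE p} [MonObj MU] {A₀ : Type w} [CommRing A₀] {G₀ : L.RegSeq p A₀}
  (Co : L.Coef (SC.sph (De p)) MU G₀)

/-- all cells are detected -/
def Core.Det (σ : Core ι p n hl j) : Prop := σ.tc1.All (DetS Co ee ww)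

/-- `v` is a multiple of a detected class -/
def Dn {T : CommMon MM} (φ : T0 ⟶ T) (a : Lam) (m : ℕ) {Y : EE p} (v : Y ⟶ (sE p).obj T.X) : Prop :=
  ∃ v₀ : (cE p).obj (dd p m - 1, (a, (ww m : ℤ))) ⟶ (sE p).obj T.X,
    DetV Co m φ a (ww m) v₀ ∧ ∀ {Z : EE p} (ψ : (sE p).obj T.X ⟶ Z), v₀ ≫ ψ = 0 → v ≫ ψ = 0

variable (ι n hl) in
/-- The class constructed in the inductive step comes from a detected class. -/
def Glue : Prop :=
  ∀ (j : ℕ) (_ : j < n) (σ : Core ι p n hl j) (_ : σ.Det Co) (c : D.O) (m : ℕ)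
    (_ : Nonempty c.El) (_ : (m : ℤ) = Fintype.card c.El + (dd p j - 1))
    (_ : σ.s.X ≅ D.EF.rep (⟨c, (ee j, (ww j : ℤ))⟩ : JG) ⊗ tpow (S MM) m)
    (V : SC (DH ι p)) (f : (sH ι p).obj ((FL (Perm ι) ι).obj σ.s.X) ⟶ V)
    (_ : Eu (N.aH ι (DH ι p)) (m + 2) f) (g : V ⟶ (sH ι p).obj σ.nz.Z.X)
    (_ : f ≫ g = (sH ι p).map σ.Fv) (Y : EE p)
    (_ : Y ≅ (cE p).obj (dd p (j + 1) - 1, (p • ee j, (uu j : ℤ))))
    (t : (kT ι p).obj Y ≅ (Kl.ks _).obj V) (y : Y ⟶ (sE p).obj σ.nz.N.X)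
    (_ : (kT ι p).map y ≫ kφ p σ.nz.φ = t.hom ≫ (Kl.ks _).map g),
    Dn Co σ.tc1.i0 (p • ee j) (j + 1) (y ≫ (sE p).map (ah σ.fold))

theorem UP0.gp {B : CommMon MM} {D : Set (Lam × ℤ)} {N : ℕ} (h : UP0 p n B D N) :
    GP (sE p) (tE p) (pa p n) B.X (sh w0 D) N := by
  have := h.self mn_w0 (gp_zero (prof_unit _ _ _) V.posT_unit (W.supp_rp 0))
  rwa [zero_add] at this

end Vale.Agent.P257.G.R
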