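import Vale.Agent.N257.Base
import Vale.Agent.N257.DivS
import Vale.Agent.P257.G.Step

/-!
# P257, rescaled windows: the inductive step
-/

open CategoryTheory MonoidalCategory Limits Pointwise

namespace Vale.Agent.P257.G.R

open Vale.Agent.P251.H Vale.Agent.P251.H.StabInput
open Vale.Agent.P257.A Vale.Agent.P257.T Vale.Agent.P257.W Vale.Agent.P257.K Vale.Agent.P257.M
open Vale.Agent.P257.N (NZ SM kT kP kφ CX)
open Vale.Agent.P257.F (DH sH RH RM FW)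
open Equiv (Perm)

universe w

variable {p : ℕ} [hp : Fact p.Prime] {n : ℕ} {ι : Type} [Finite ι] [Nontrivial ι]
  [hι : Fact (Nat.card ι = p)] {hl : 4 ≤ Nat.card ι} {j : ℕ}
  {MU : EE p} [MonObj MU] {A₀ : Type w} [CommRing A₀] {G₀ : L.RegSeq p A₀}
  (Co : L.Coef (SC.sph (De p)) MU G₀)

/-- **The inductive step.** -/
theorem Core.step [DecidableEq ι] (h : Num p n) (C : CX ι p) (hG : Glue ι n hl Co)
    (hj : j < n) (σ : Core ι p n hl j) (hd : σ.Det Co) :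
    ∃ σ' : Core ι p n hl (j + 1), σ'.Det Co := by
  obtain ⟨Y, q, X, y, t, f, hY, hX, ht, hf, ⟨v₀, hv, hv'⟩, hF, hF'⟩ := σ.exists_next C h hG hj hd
  have hP : 2 * 2 ^ n < p * uu j := h.lt_two ((two_le_ww j).trans (ww_le_uu j))
  obtain ⟨v, -, h1, h2⟩ := exists_per Co σ.tc1.i0 (p • ee j) (ee (j + 1)) _ _ (Iso.refl _) v₀
  obtain ⟨b, T', B', R₁, s, sp', r, g₁, g₂, X₁, x₁, χ₁, ε, hA, hAq, hs, hε, hg, e1, e2, e3⟩ :=
    LLP hp.out ⟨le0_T0, posT_T0⟩ σ.c1 σ.good (WW_le _) (h.lt_ww hj) v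
  have hu := h.up_llp e1 e2 e3
  rw [hg] at hu
  obtain ⟨a₁, k, hk⟩ := σ.un.ex (b.g ≫ r.i)
  have w₁ : σ.nz.β ≫ σ.fold ≫ s.i = (b.g ≫ r.i) ≫ sp' := by
    rw [reassoc_of% σ.hfold, Category.assoc, r.hi, reassoc_of% b.hg]
  have z₁ : (sE p).map ((y ≫ ah k.n) ≫ ah (hk.1.desc _ _ w₁)) = 0 := by
    rw [Category.assoc, ← ah_comp, hk.1.inl_desc, ah_comp, ← Category.assoc, Functor.map_comp]
    refine hv' _ (h2 _ _ ?_)
    rw [← cancel_epi ε.hom, ← Category.assoc, ← hε, ← Functor.map_comp, ← s.att.w, comp_zero]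
    exact N.st_cone_zero _ _
  obtain ⟨X', u, χ', hX', hu', hχ'⟩ := hX.null z₁
  obtain ⟨a₂, l, X'', u', χ, hX'', -, att, un₂, z₂⟩ := un_sigma C (σ.un.bc hk)
    (by exact_mod_cast hP) hX' (even_dd _ _) (Int.natCast_nonneg _) hY
    (q ≫ (sH ι p).map (ah k.z)) (u ≫ y ≫ ah k.n)
    ((kT ι p).mapIso (asIso ((sE p).map u)) ≪≫ t) (by
      rw [Functor.map_comp, Functor.map_comp, Functor.map_comp, Functor.map_comp, Category.assoc,
        Category.assoc, kφ_hom, ← Category.assoc ((kT ι p).map ((sE p).map y)), ht,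
        Functor.map_comp, Iso.trans_hom, Category.assoc, Category.assoc]
      rfl)
  obtain ⟨fold, f1, -⟩ := att.desc (hk.1.desc _ _ w₁) (u' ▷ CI MM ≫ χ') (by
    rw [coneBase_naturality_assoc, hχ']
    simp only [Category.assoc])
  obtain ⟨Z, z, κ, hκ, un₃⟩ := un_kappa C un₂ (σ.Fv ≫ ah (k.z ≫ l.z)) (by
    rw [Functor.map_comp, ← hf, ah_comp, Functor.map_comp, Category.assoc,
      ← Category.assoc q, z₂, comp_zero]) hF hF'
  obtain ⟨F₁, hF₁, -⟩ := σ.hFr.att σ.r.att ((k.z ≫ l.z) ≫ z) κ (by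
    rw [hκ, Category.assoc, ← ah_comp])
  have hβ : a₁.β ≫ l.n = a₂.β := l.hβ.trans (Category.id_comp _)
  have hγ : a₁.γ ≫ l.z = a₂.γ := by rw [l.hγ, N.trivMap_id, Category.id_comp]
  obtain ⟨F₂, hF₂, -⟩ := hF₁.bc (hAq σ.lq) b.po (z := 𝟙 Z)
    (γ' := trivMap (Perm ι) (b.c'.i0 ≫ r.i) ≫ a₂.γ ≫ z) (by
      rw [Category.comp_id, Category.assoc, Category.assoc, reassoc_of% k.hγ,
        reassoc_of% hγ, ← Category.assoc, ← Category.assoc (trivMap _ b.f), ← N.trivMap_comp,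
        ← N.trivMap_comp, ← Category.assoc b.f, ← b.po.w, Category.assoc]
      rfl)
  refine ⟨⟨b.A', b.sp0', σ.T1, T', σ.tc1, s, hs, b.R', B', b.sp', sp', b.c', r, hA, hAq σ.lq, a₂.ext z,
    un₃, fold, ?_, F₂, hF₂, ?_, ?_⟩, ?_⟩
  · change a₂.β ≫ fold = sp'
    rw [← hβ, Category.assoc, f1, hk.1.inr_desc]
  · rw [UP0, Subsingleton.elim default (default ≫ b.g ≫ r.i)]
    exact (UP.comp σ.upB hu).mono le_rfl (Nat.cast_add _ _).ge
  · change UP0 p n a₂.N _ _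
    rw [UP0, Subsingleton.elim default ((default ≫ k.n) ≫ l.n)]
    exact ((UP.comp σ.upN (hu.bc hk.1.flip)).comp (up_odd (worldE hp.out) hP att hX''
      (even_dd _ _) (Cn.nsmul_mem (ee_mem j) p).1 (bd_le j))).mono
      ((add_assoc _ _ _).trans (add_add_add_comm _ _ _ _)).le
      ((add_zero _).trans (Nat.cast_add _ _).symm).le
  · exact And.intro hd (show DetV Co (j + 1) σ.tc1.i0 (ee (j + 1)) (ww (j + 1))
      ((sE p).map s.v) from hε ▸ (h1 _ hv).iso ε)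

end Vale.Agent.P257.G.R
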