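import Vale.Agent.N257.Ind
import Vale.Agent.P257.H762.MHasV
import Vale.Agent.P251CX.Top

/-!
# P257, rescaled windows: the final statement
-/

namespace Vale.Agent.N257

open Vale.Agent.P251.St (SHCat Susp)
open Vale.Agent.P251.St.SHCat Vale.Agent.P251CX Vale.Agent.P251CY Vale.Agent.P251CY.V

theorem top : (∃ (T : SHCat) (S : Susp T), Nonempty (IsSH T S.toSuspData)) ∧
    ∀ (T : SHCat) (S : Susp T) (n p : ℕ), p.Prime →
      (5 ≤ p → (2 ^ n < p ∨ (n ≤ 4 ∧ 11 ≤ p)) → HasV S p n ∧ HasTower S p n) ∧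
      (p ≠ 2 → HasV S p (n + 1) → HasV S p n) := by
  refine ⟨exists_isSH, fun T S n p hp => ⟨fun h5 h => ?_, fun h2 h => (hasV_iff S p n).2
    (Vale.Agent.P257.H762.hasV_mono hp h2 ((hasV_iff S p (n + 1)).1 h))⟩⟩
  have : Fact p.Prime := ⟨hp⟩
  obtain ⟨B, o, φ, hB⟩ := P257.H702.exists_isBrownPeterson S p
  have k := P257.G.R.hasTower S n p hp h5 h
  obtain ⟨X, -, hX⟩ := id k
  obtain ⟨h1, f, g, l, -, h2⟩ := hX n le_rfl
  exact ⟨⟨⟨RingSp.ofOld B, Oriented.ofOld o, GHom.ofOld φ, (isBrownPeterson_iff _ _ _).2 hB⟩,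
    X (n + 1), h1, fun B o φ m => (h2 B o φ m).2⟩, k⟩

end Vale.Agent.N257
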